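import Crest.Agent.N255.Dr.O
import Crest.Agent.N255.Dr.Pb

-- ▼ part N255/Core/Defs
section

/-! Row 255, algebraic core: walls, vertex identities and the final statement `CoreS`
(only truncated polynomial algebras occur here). -/

set_option autoImplicit false

namespace N255.Core

open N255.Dr N255.Dr.O

instance factZ (p : ℕ) : Fact ((p : ZMod p) = 0) := ⟨ZMod.natCast_self p⟩

/-- A wall: variables `s` of kind `some true` (near for the `M` side), `some false` (near for the
`L` side) or `none` (boundary variables `y`); a depth `F`, a grading `deg` and a potential `W`. -/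
structure Wall (p : ℕ) (Γ : Type) [AddCommGroup Γ] (δ : Γ) (s : Type) [Fintype s] where
  kd : s → Option Bool
  F : s → ℕ
  deg : s → Γ
  W : O p (ZMod p) s
  W2 : W ∈ (mx : Ideal (O p (ZMod p) s)) ^ 2
  hom : ∀ a : s → ℕ, cf a W ≠ 0 → ∑ i, a i • deg i = δ
  inj : ∀ i j, kd i = none → kd j = none → deg i = deg j → i = j

variable {p : ℕ} [Fact p.Prime] {Γ : Type} [AddCommGroup Γ] {δ : Γ} {s : Fin 3 → Type}
  [∀ i, Fintype (s i)]

/-- the linear coefficient -/
noncomputable def lin {V : Type} (v : V) (f : O p (ZMod p) V) : ZMod p := aug (pd v f)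

/-- the indices of the variables at a vertex: `(⟨i, x⟩, false)` is the copy of a near variable or
of a `y` of slot `i`, `(⟨i, x⟩, true)` is the variable `m` dual to `y = x` of an `L` slot. -/
def Ok (w : ∀ i, Wall p Γ δ (s i)) (t : Fin 3 → Bool) (q : (Σ i, s i) × Bool) : Prop :=
  (q.2 = false ∧ (w q.1.1).kd q.1.2 ≠ some (!t q.1.1)) ∨
    (q.2 = true ∧ t q.1.1 = false ∧ (w q.1.1).kd q.1.2 = none)

/-- the Gaussian variables: the copies of `y` and the variables `m` of the `L` slots -/
abbrev Xi (w : ∀ i, Wall p Γ δ (s i)) (t : Fin 3 → Bool) : Type :=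
  {q : (Σ i, s i) × Bool // t q.1.1 = false ∧ (w q.1.1).kd q.1.2 = none}

/-- `f` has no constant term and its linear part only contains variables of depth `> n` -/
def Up {V : Type} (w : ∀ i, Wall p Γ δ (s i)) (t : Fin 3 → Bool) (em : (Σ i, s i) × Bool → V)
    (FV : (Σ i, s i) × Bool → ℕ) (n : ℕ) (f : O p (ZMod p) V) : Prop :=
  f ∈ (mx : Ideal (O p (ZMod p) V)) ∧ ∀ q, Ok w t q → FV q ≤ n → lin (em q) f = 0

/-- A vertex identity for the pattern `t` (`t i = true`: slot `i` is read from the `M` side).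
Variables of `V` outside `em '' Ok` are allowed (they are put equal to zero). -/
structure Vx (w : ∀ i, Wall p Γ δ (s i)) (t : Fin 3 → Bool) (V : Type) where
  em : (Σ i, s i) × Bool → V
  inj : Set.InjOn em {q | Ok w t q}
  FV : (Σ i, s i) × Bool → ℕ
  hF : ∀ i x, FV (⟨i, x⟩, false) = (w i).F x
  io : ∀ i, O p (ZMod p) (s i) →ₐ[ZMod p] O p (ZMod p) V
  hy : ∀ i x, (w i).kd x = none → io i (z x) = z (em (⟨i, x⟩, false))
  near : ∀ i x, (w i).kd x = some (t i) →
    Up w t em FV ((w i).F x) (io i (z x) - z (em (⟨i, x⟩, false)))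
  far : ∀ i x, (w i).kd x = some (!t i) → Up w t em FV ((w i).F x) (io i (z x))
  rho : O p (ZMod p) (Xi w t) →ₐ[ZMod p] O p (ZMod p) V
  hrho : ∀ q : Xi w t, Up w t em FV (FV q.1) (rho (z q) - z (em q.1))
  Q : O p (ZMod p) (Xi w t)
  hQ : Q ∈ (mx : Ideal (O p (ZMod p) (Xi w t))) ^ 2
  c : ∀ i, s i → ZMod p
  hc : ∀ i x, t i = false → (w i).kd x = none → c i x ≠ 0
  Ps : O p (ZMod p) V
  hPs : Ps ∈ Ideal.span {f : O p (ZMod p) V | ∃ v, f = z v ∧
    ∀ i x, (w i).kd x = some (t i) → v ≠ em (⟨i, x⟩, false)} ^ 3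
  eq : ∑ i, (if t i = true then io i (w i).W else -io i (w i).W) +
    ∑ i, ∑ x, (if t i = false ∧ (w i).kd x = none then
      c i x • (z (em (⟨i, x⟩, false)) * z (em (⟨i, x⟩, true))) else 0) + Ps = rho Q

/-- the trilinear coefficient in the directions `al` (`y` for `M` slots, `m` for `L` slots) -/
noncomputable def Vx.cub {w : ∀ i, Wall p Γ δ (s i)} {t : Fin 3 → Bool} {V : Type}
    (v : Vx w t V) (al : ∀ i, s i) : ZMod p :=
  aug (pd (v.em (⟨0, al 0⟩, !t 0)) (pd (v.em (⟨1, al 1⟩, !t 1)) (pd (v.em (⟨2, al 2⟩, !t 2)) v.Ps)))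



end N255.Core
end

-- ▼ part N255/Core/Stm

/-! Row 255, algebraic core: tests, the dichotomy `DichS` and the vertex theorem `VertexS`. -/

set_option autoImplicit false

namespace N255.Core

open N255.Dr N255.Dr.O LaurentPolynomial

/-- the coefficient ring `k[u, u⁻¹]` -/
abbrev Au (p : ℕ) : Type := LaurentPolynomial (ZMod p)

instance factA (p : ℕ) : Fact ((p : Au p) = 0) :=
  ⟨by rw [← map_natCast (algebraMap (ZMod p) (Au p)), ZMod.natCast_self, map_zero]⟩

/-- indices of monomial forms `u^j z^a dz^S` -/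
abbrev Ix (s : Type) : Type := ℤ × (s → ℕ) × Finset s

section
variable {p : ℕ} [Fact p.Prime] {s : Type} [Fintype s] [DecidableEq s]

/-- the monomial form `u^j z^a dz^S` -/
noncomputable def mu (x : Ix s) : Om p (Au p) s := (T x.1 : Au p) • Om.mon x.2.1 x.2.2

/-- all monomials occurring in `ω` satisfy `P` -/
def In (P : Ix s → Prop) (ω : Om p (Au p) s) : Prop :=
  ∀ x : Ix s, (Om.co x.2.1 x.2.2 ω).coeff x.1 ≠ 0 → P x

/-- an additive weight on monomial forms -/
def wt (wu : ℤ) (wz wd : s → ℤ) (x : Ix s) : ℤ :=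
  wu * x.1 + ∑ i, (x.2.1 i : ℤ) * wz i + ∑ i ∈ x.2.2, wd i

variable {Γ : Type} [AddCommGroup Γ] {δ : Γ}

namespace Wall

variable (w : Wall p Γ δ s) (N La : ℕ)

/-- the pure weight `F` -/
def wF : Ix s → ℤ := wt 0 (fun i => N + w.F i) fun i => N + w.F i

/-- the main weight -/
def wW : Ix s → ℤ :=
  wt (2 * La) (fun i => if w.kd i = none then (La : ℤ) else N + w.F i) fun i => N + w.F i

/-- admissible parameters -/
def Adm : Prop := (∀ i, w.F i < N) ∧ 2 * N * p * (Fintype.card s + 1) ≤ La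

/-- the near variables of the side `b` (with `y` on the `M` side `b = true`) -/
def nr (b : Bool) : Finset s :=
  Finset.univ.filter fun i => w.kd i = some b ∨ (b = true ∧ w.kd i = none)

/-- `u^j` times the Thom form of the near variables -/
def h0 (b : Bool) (j : ℤ) : Ix s := (j, fun i => if i ∈ w.nr b then p - 1 else 0, w.nr b)

/-- the leading monomials: `T_X y^(top - e_al) dy` and `u⁻¹ y_al T_X'` -/
def ld (b : Bool) (al : s) : Ix s :=
  (if b = true then 0 else -1,
    fun i => if i = al then (if b = true then p - 2 else 1) else if i ∈ w.nr b then p - 1 else 0,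
    w.nr b)

/-- the allowed closed, non exact parts -/
def Hm (b : Bool) (x : Ix s) : Prop :=
  (x = w.h0 b x.1 ∧ 0 ≤ x.1) ∨ (x ≠ w.h0 b x.1 ∧
    if b = true then w.wF N (w.h0 b 0) ≤ w.wF N x else w.wF N (w.h0 b 0) < w.wF N x)

/-- the allowed non leading terms -/
def Lt (b : Bool) (al : s) (x : Ix s) : Prop :=
  if b = true then w.wW N La (w.ld b al) ≤ w.wW N La x ∧ ∀ be, w.kd be = none → x ≠ w.ld b be
  else w.wW N La (w.ld b al) < w.wW N La x

/-- `exp (-W/u)` on the `M` side, `exp (W/u)` on the `L` side -/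
noncomputable def Eu (b : Bool) : O p (Au p) s :=
  O.E ((if b = true then -T (-1) else T (-1) : Au p) • O.bc (Au p) w.W)

/-- a test for the side `b` in the direction `al` -/
def Test (b : Bool) (al : s) : Prop :=
  ∃ ze h : Om p (Au p) s, Om.d h = 0 ∧ In (w.Hm N b) h ∧
    In (w.Lt N La b al) (w.Eu b • (Om.d ze + h) - mu (w.ld b al))

end Wall

end



end N255.Core
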