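import Crest.Agent.N255.Core.Stm

/-! Row 255, algebraic core with arbitrary positive weights: `DichG`, `MoveG`, `VertexG`. -/

set_option autoImplicit false

namespace N255.Core

open N255.Dr N255.Dr.O

section
variable {p : ℕ} [Fact p.Prime] {Γ : Type} [AddCommGroup Γ] {δ : Γ}

/-- all monomials of `f` have weight `> n` -/
def Hi {V : Type} [Fintype V] (FV : V → ℕ) (n : ℕ) (f : O p (ZMod p) V) : Prop :=
  ∀ a : V → ℕ, cf a f ≠ 0 → n < ∑ v, a v * FV v

namespace Wall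

variable {s : Type} [Fintype s] [DecidableEq s] (w : Wall p Γ δ s) (N La : ℕ)

/-- the function weights of the main weight -/
def wz (i : s) : ℕ := if w.kd i = none then La else N + w.F i

/-- the second weight: `u` and (on the `L` side) the functions `y` count one -/
def jw (b : Bool) (x : Ix s) : ℤ :=
  x.1 + ∑ i, if b = false ∧ w.kd i = none then (x.2.1 i : ℤ) else 0

/-- no far factor -/
def NoFar (b : Bool) (x : Ix s) : Prop := ∀ i, w.kd i = some (!b) → x.2.1 i = 0 ∧ i ∉ x.2.2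

/-- the arithmetic of the weights used by the vertex theorem -/
structure Gd (b : Bool) (al : s) : Prop where
  pos : ∀ i, 0 < N + w.F i
  le : ∀ i, w.kd i = none → N + w.F i ≤ La
  qz : ∀ x : Ix s, (∀ i, x.2.1 i < p) → w.wW N La (w.ld b al) ≤ w.wW N La x → 0 ≤ w.jw b x
  gen : b = true → ∀ x : Ix s, (∀ i, x.2.1 i < p) → w.NoFar b x →
    w.wW N La x = w.wW N La (w.ld b al) → (∃ be, w.kd be = none ∧ x = w.ld b be) ∨ 1 ≤ x.1

end Wall

/-- A move of the side `b` from the wall `w` to the wall `w'`: near variables and `y` correspond,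
far variables are substituted, an error `R` of main weight `> 2 La` is allowed. -/
structure Mv {s s' : Type} [Fintype s] [Fintype s'] [DecidableEq s'] (w : Wall p Γ δ s)
    (w' : Wall p Γ δ s') (N La : ℕ) (b : Bool) where
  e : s → s'
  inj : Set.InjOn e {x | w.kd x ≠ some (!b)}
  kd : ∀ x, w.kd x ≠ some (!b) → w'.kd (e x) = w.kd x
  onto : ∀ x', w'.kd x' ≠ some (!b) → ∃ x, w.kd x ≠ some (!b) ∧ e x = x'
  hF : ∀ x, w.kd x ≠ some (!b) → w'.F (e x) = w.F x
  io : O p (ZMod p) s →ₐ[ZMod p] O p (ZMod p) s'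
  hy : ∀ x, w.kd x = none → io (z x) = z (e x)
  near : ∀ x, w.kd x = some b → Hi (fun i => N + w'.F i) (N + w.F x) (io (z x) - z (e x))
  far : ∀ x, w.kd x = some (!b) → Hi (fun i => N + w'.F i) (N + w.F x) (io (z x))
  R : O p (ZMod p) s'
  R2 : R ∈ (mx : Ideal (O p (ZMod p) s')) ^ 2
  hR : Hi (w'.wz N La) (2 * La) R
  eq : w'.W = io w.W + R

variable {s : Fin 3 → Type} [∀ i, Fintype (s i)]

open Classical in
/-- A vertex identity with weights `FV` (pure) on `V`; no extra variables. -/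
structure VxG (w : ∀ i, Wall p Γ δ (s i)) (t : Fin 3 → Bool) (N La : ℕ) (V : Type)
    [Fintype V] where
  em : (Σ i, s i) × Bool → V
  inj : Set.InjOn em {q | Ok w t q}
  onto : ∀ x : V, ∃ q, Ok w t q ∧ em q = x
  FV : V → ℕ
  hF : ∀ i x, Ok w t (⟨i, x⟩, false) → FV (em (⟨i, x⟩, false)) = N + (w i).F x
  hm : ∀ i x, Ok w t (⟨i, x⟩, true) → 0 < FV (em (⟨i, x⟩, true)) ∧ FV (em (⟨i, x⟩, true)) ≤ La
  io : ∀ i, O p (ZMod p) (s i) →ₐ[ZMod p] O p (ZMod p) V
  hy : ∀ i x, (w i).kd x = none → io i (z x) = z (em (⟨i, x⟩, false))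
  near : ∀ i x, (w i).kd x = some (t i) →
    Hi FV (N + (w i).F x) (io i (z x) - z (em (⟨i, x⟩, false)))
  far : ∀ i x, (w i).kd x = some (!t i) → Hi FV (N + (w i).F x) (io i (z x))
  rho : O p (ZMod p) (Xi w t) →ₐ[ZMod p] O p (ZMod p) V
  hrho : ∀ q : Xi w t, Hi FV (FV (em q.1)) (rho (z q) - z (em q.1))
  Q : O p (ZMod p) (Xi w t)
  hQ : Q ∈ (mx : Ideal (O p (ZMod p) (Xi w t))) ^ 2
  c : ∀ i, s i → ZMod p
  hc : ∀ i x, t i = false → (w i).kd x = none → c i x ≠ 0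
  Ps : O p (ZMod p) V
  Ps2 : Ps ∈ (mx : Ideal (O p (ZMod p) V)) ^ 2
  hPs : ∀ a : V → ℕ, cf a Ps ≠ 0 → 3 * La ≤ ∑ v, a v *
    if ∃ i x, (w i).kd x = some (t i) ∧ v = em (⟨i, x⟩, false) then FV v else La
  eq : ∑ i, (if t i = true then io i (w i).W else -io i (w i).W) +
    ∑ i, ∑ x, (if t i = false ∧ (w i).kd x = none then
      c i x • (z (em (⟨i, x⟩, false)) * z (em (⟨i, x⟩, true))) else 0) + Ps = rho Q

/-- the trilinear coefficient in the directions `al` -/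
noncomputable def VxG.cub {w : ∀ i, Wall p Γ δ (s i)} {t : Fin 3 → Bool} {N La : ℕ} {V : Type}
    [Fintype V] (v : VxG w t N La V) (al : ∀ i, s i) : ZMod p :=
  aug (pd (v.em (⟨0, al 0⟩, !t 0)) (pd (v.em (⟨1, al 1⟩, !t 1)) (pd (v.em (⟨2, al 2⟩, !t 2)) v.Ps)))

end

/-- the dichotomy for arbitrary weights -/
def DichG : Prop :=
  ∀ (p : ℕ) [Fact p.Prime] (Γ : Type) [AddCommGroup Γ] (δ : Γ) (s : Type) [Fintype s]
    [DecidableEq s] (w : Wall p Γ δ s) (N La : ℕ), 0 < La → ∀ al, w.kd al = none →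
    w.Test N La true al ∨ w.Test N La false al


/-- the vertex theorem for arbitrary weights -/
def VertexG : Prop :=
  ∀ (p : ℕ) [Fact p.Prime] (Γ : Type) [AddCommGroup Γ] (δ : Γ) (s : Fin 3 → Type)
    [∀ i, Fintype (s i)] [∀ i, DecidableEq (s i)] (w : ∀ i, Wall p Γ δ (s i)) (t : Fin 3 → Bool)
    (N La : ℕ) (V : Type) [Fintype V] [DecidableEq V] (v : VxG w t N La V) (al : ∀ i, s i),
    (∀ i, (w i).kd (al i) = none) → (∀ i, (w i).Gd N La (t i) (al i)) →
    (∀ i, (w i).Test N La (t i) (al i)) → v.cub al = 0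

end N255.Core
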