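import Crest.Agent.N255.Core.GenH
import Crest.Agent.N255.Lv.Tr
import Crest.Agent.N255.Core.Stm
import Crest.Agent.N255.Dr.Wt
import Crest.Agent.N255.Vx.Geo
import Crest.Agent.N255.Dr.Lu

-- ▼ part N255/Core/Typ
section

/-! Row 255 (helper45): walls indexed by the orbits of a subgroup `F` of the free group; `NoLab`, `CoreF`. -/

set_option autoImplicit false

namespace N255.Core

open N255.Dr N255.Dr.O Finset Crest.Agent.N255.Pt Crest.Agent.N255.Lv

variable {ι : Type}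

/-- the `F`-orbits of geometric edges -/
abbrev Wo (F : Subgroup (FreeGroup ι)) : Type := Quotient (QuotientGroup.rightRel F) × ι

/-- the orbit of an edge -/
def cl (F : Subgroup (FreeGroup ι)) (e : Ed ι) : Wo F := (Quotient.mk _ (og e.v e.k), e.k.1)

/-- the positive representative of an orbit -/
noncomputable def rp {F : Subgroup (FreeGroup ι)} (c : Wo F) : Ed ι := ⟨c.1.out, (c.2, true)⟩

/-- the positive orientation of an edge -/
def pe (e : Ed ι) : Ed ι := ⟨og e.v e.k, (e.k.1, true)⟩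

variable {F : Subgroup (FreeGroup ι)}



theorem pe_eq (e : Ed ι) : pe e = if e.k.2 = true then e else rev e := by
  obtain ⟨v, i, _ | _⟩ := e <;> rfl

@[simp] theorem cl_snd (e : Ed ι) : (cl F e).2 = e.k.1 := rfl

@[simp] theorem rp_k (c : Wo F) : (rp c).k = (c.2, true) := rfl

@[simp] theorem cl_pe (e : Ed ι) : cl F (pe e) = cl F e := rfl

@[simp] theorem cl_rev (e : Ed ι) : cl F (rev e) = cl F e :=
  Prod.ext (congrArg (Quotient.mk _) (og_op e.v e.k)) rfl

@[simp] theorem cl_rp (c : Wo F) : cl F (rp c) = c := Prod.ext (Quotient.out_eq c.1) rfl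

theorem cl_smul (f : F) (e : Ed ι) : cl F (f.1 • e) = cl F e := by
  refine Prod.ext (Quotient.sound (QuotientGroup.rightRel_apply.2 ?_)) rfl
  show og e.v e.k * (og (f.1 * e.v) e.k)⁻¹ ∈ F
  rw [og_mul, mul_inv_rev, mul_inv_cancel_left]
  exact F.inv_mem f.2

/-- every edge is a translate of the representative of its orbit -/
theorem exists_rp (e : Ed ι) : ∃ f : F, f.1 • rp (cl F e) = pe e := by
  have h : og e.v e.k * ((cl F e).1.out)⁻¹ ∈ F :=
    QuotientGroup.rightRel_apply.1 (Quotient.exact (Quotient.out_eq (cl F e).1))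
  exact ⟨⟨_, h⟩, L.ext (inv_mul_cancel_right _ _) rfl⟩

instance finQ [F.FiniteIndex] : Finite (Quotient (QuotientGroup.rightRel F)) :=
  .of_equiv _ (QuotientGroup.quotientRightRelEquivQuotientLeftRel F).symm

/-- every choice of sides of the walls points, at some vertex, to walls of all types -/
def NoLab (F : Subgroup (FreeGroup ι)) : Prop :=
  ∀ σ : Wo F → Bool, ∃ (v : FreeGroup ι) (t : ι → Bool), ∀ i, σ (cl F ⟨v, (i, t i)⟩) = t i

theorem NoLab.mono {F' : Subgroup (FreeGroup ι)} (h : NoLab F) (hF : F ≤ F') : NoLab F' := by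
  intro σ
  let π : Quotient (QuotientGroup.rightRel F) → Quotient (QuotientGroup.rightRel F') :=
    Quotient.map id fun a b e =>
      QuotientGroup.rightRel_apply.2 (hF (QuotientGroup.rightRel_apply.1 e))
  exact h fun c => σ (π c.1, c.2)


/-- odd index, one type of edges consists of loops -/
theorem noLab_odd {F : Subgroup (FreeGroup (Fin 3))} (hF : Odd F.index) (i0 : Fin 3)
    (h0 : ∀ v, v * FreeGroup.of i0 * v⁻¹ ∈ F) : NoLab F := by
  classical
  intro σ
  have : F.FiniteIndex := ⟨hF.pos.ne'⟩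
  let Q := Quotient (QuotientGroup.rightRel F)
  have : Fintype Q := Fintype.ofFinite Q
  have hQ : Odd (Fintype.card Q) := by
    rw [← Nat.card_eq_fintype_card,
      Nat.card_congr (QuotientGroup.quotientRightRelEquivQuotientLeftRel F)]
    exact hF
  let τ : FreeGroup (Fin 3) → Q → Q := fun g => Quotient.map (· * g) fun a b e =>
    QuotientGroup.rightRel_apply.2 (by simpa [mul_assoc] using QuotientGroup.rightRel_apply.1 e)
  have hτ : ∀ g q, τ g (τ g⁻¹ q) = q := fun g q => by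
    induction q using Quotient.inductionOn with
    | h a => exact congrArg (Quotient.mk _) (inv_mul_cancel_right a g)
  let B : Fin 3 → Finset Q := fun i =>
    {q | σ (q, i) = false ∧ σ (τ (FreeGroup.of i)⁻¹ q, i) = true}
  have hB : ∀ i, 2 * (B i).card < Fintype.card Q := fun i => by
    have h1 : (B i).card ≤ (B i)ᶜ.card := by
      refine card_le_card_of_injOn (τ (FreeGroup.of i)⁻¹) (fun q hq => ?_) fun a _ b _ e => ?_
      · simp only [B, coe_filter, mem_univ, true_and, Set.mem_ofPred_eq, coe_compl,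
          Set.mem_compl_iff] at hq ⊢
        exact fun h => by simp [hq.2] at h
      · rw [← hτ (FreeGroup.of i) a, e, hτ]
    rw [card_compl] at h1
    have := card_le_univ (B i)
    obtain ⟨m, hm⟩ := hQ
    omega
  have hB0 : B i0 = ∅ := by
    refine filter_eq_empty_iff.2 fun q _ h => ?_
    have : τ (FreeGroup.of i0)⁻¹ q = q := by
      induction q using Quotient.inductionOn with
      | h a => exact Quotient.sound (QuotientGroup.rightRel_apply.2 (by
          simpa [mul_assoc] using h0 a))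
    rw [this, h.1] at h
    exact absurd h.2 (by simp)
  obtain ⟨q, hq⟩ : ∃ q, ∀ i, q ∉ B i := by
    by_contra hc
    push Not at hc
    have h1 : (univ : Finset Q) ⊆ univ.biUnion B := fun q _ => by
      obtain ⟨i, hi⟩ := hc q
      exact mem_biUnion.2 ⟨i, mem_univ _, hi⟩
    have h2 := (card_le_card h1).trans card_biUnion_le
    rw [Fin.sum_univ_three, card_univ] at h2
    have := hB 0; have := hB 1; have := hB 2
    have h3 : (B i0).card = 0 := by rw [hB0]; rfl
    fin_cases i0 <;> simp only [Fin.zero_eta, Fin.mk_one, Fin.reduceFinMk] at h3 <;> omega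
  induction q using Quotient.inductionOn with
  | h v =>
    refine ⟨v, fun i => σ (Quotient.mk _ v, i) , fun i => ?_⟩
    have h1 := hq i
    simp only [B, mem_filter, mem_univ, true_and, not_and] at h1
    beta_reduce
    cases h : σ (Quotient.mk _ v, i)
    · have h2 := h1 h
      rw [Bool.not_eq_true] at h2
      rw [cl, og_false, x_false]
      exact h2
    · exact h

/-- the subgroups `χ⁻¹(nℤ)`, `n` odd -/
theorem noLab_chi (χ : FreeGroup (Fin 3) →* Multiplicative ℤ) {n : ℤ} (hn : Odd n) (i0 : Fin 3)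
    (h0 : χ (FreeGroup.of i0) = 1) {F : Subgroup (FreeGroup (Fin 3))}
    (hF : ∀ f, n ∣ (χ f).toAdd → f ∈ F) : NoLab F := by
  let φ : FreeGroup (Fin 3) →* Multiplicative (ZMod n.natAbs) :=
    (AddMonoidHom.toMultiplicative (Int.castAddHom (ZMod n.natAbs))).comp χ
  have ho : Odd n.natAbs := Int.natAbs_odd.2 hn
  have : NeZero n.natAbs := ⟨ho.pos.ne'⟩
  refine (noLab_odd (F := φ.ker) ?_ i0 fun v => ?_).mono fun f hf => hF f ?_
  · rw [Subgroup.index_ker]
    refine Odd.of_dvd_nat ho ?_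
    simpa using Subgroup.card_subgroup_dvd_card φ.range
  · simp [φ, MonoidHom.mem_ker, h0]
  · have : ((χ f).toAdd : ZMod n.natAbs) = 0 := congrArg Multiplicative.toAdd hf
    exact Int.natAbs_dvd.1 ((ZMod.intCast_zmod_eq_zero_iff_dvd _ _).1 this)

/-- walls with even weights have a strong side -/
theorem exists_strong {p : ℕ} [Fact p.Prime] (hp2 : p ≠ 2) {Γ : Type} [AddCommGroup Γ] {δ : Γ}
    {I : Type} {s : I → Type} [∀ c, Fintype (s c)] [∀ c, DecidableEq (s c)]
    (w : ∀ c, Wall p Γ δ (s c)) (N : ℕ) {La : ℕ} (hL : 0 < La) {D : ∀ c, ZMod p → s c}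
    (hD : ∀ c d, (w c).kd (D c d) = none) :
    ∃ σ : I → Bool, ∀ c, (w c).Strong N La (σ c) (D c) := by
  have hs : ∀ c, ∃ b, (w c).Strong N La b (D c) := fun c =>
    (strong_orG N255.Ts.dichG_holds hp2 (w c) N hL (hD c)).elim (fun h => ⟨_, h⟩) fun h => ⟨_, h⟩
  choose σ hσ using hs
  exact ⟨σ, hσ⟩



end N255.Core
end

-- ▼ part N255/Vx/Tp
section

/-! Row 255 (helper21): the Gaussian top form is a multiple of the Thom form up to an exact form. -/

set_option autoImplicit false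

namespace N255.Vx

open N255.Dr N255.Dr.O N255.Core LaurentPolynomial Finset

theorem top_form {p : ℕ} [Fact p.Prime] {X : Type} [Fintype X] [DecidableEq X] (Q : O p (ZMod p) X)
    (hQ : Q ∈ (mx : Ideal (O p (ZMod p) X)) ^ 2) :
    ∃ (g : Au p) (be : Om p (Au p) X),
      (∀ j, g.coeff j ≠ 0 → -(((p - 1 : ℕ) : ℤ) * (Fintype.card X : ℤ)) ≤ 2 * j) ∧
      (O.E ((-T (-1) : Au p) • bc (Au p) Q)) • (Om.e univ : Om p (Au p) X) =
        g • Om.mon (Om.top p X) univ + Om.d be := by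
  obtain ⟨be, h⟩ := Om.exists_d_top (O.E ((-T (-1) : Au p) • bc (Au p) Q))
  refine ⟨_, be, fun j hj => ?_, h⟩
  have h1 : Om.fn (bc (LA (ZMod p)) Q) ∈ Om.Fil 2 (fun _ => 1) (fun _ => 0) 2 :=
    Om.fn_bc_mem fun a ha => by
      have : ¬ ∑ i, a i < 2 := fun h2 => ha (cf_eq_zero_of_mem_pow hQ h2)
      simp only [gw, zero_smul, zero_add, sum_empty, add_zero, nsmul_eq_mul, mul_one]
      exact_mod_cast not_lt.1 this
  have h2 : Om.fn ((-T (-1) : LA (ZMod p)) • bc (LA (ZMod p)) Q) ∈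
      Om.Fil 2 (fun _ => 1) (fun _ => 0) 0 := by
    rw [Om.fn_smul, neg_smul]
    exact neg_mem (Om.Sw_T (-1) (fun x hx => by simp only [neg_smul, one_smul]; omega) h1)
  have h3 := Om.fn_mem_Su.1 (Om.E_Fil le_rfl (Submodule.smul_of_tower_mem _ _ (bc_mem_pow _ hQ)) h2).1
    j (Om.top p X) hj
  simp only [gw, Om.top, nsmul_eq_mul, mul_one, sum_const, card_univ,
    zsmul_eq_mul, Int.cast_id] at h3
  linarith

end N255.Vx
end

-- ▼ part N255/Vx/Lhs
section

/-!
# Row 255, vertex count (helper7): the closed side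
-/

set_option autoImplicit false
set_option linter.unusedSectionVars false

namespace N255.Vx

open Finset N255.Dr N255.Dr.O N255.Core LaurentPolynomial

theorem Lx.zero {B : Type*} [Ring B] {F J : Fil B} {s t : ℤ} : Lx F J s t 0 :=
  ⟨0, zero_mem _, zero_mem _, by simp⟩

theorem Lx.add {B : Type*} [Ring B] {F J : Fil B} {s t : ℤ} {a a' : B} (h : Lx F J s t a)
    (h' : Lx F J s t a') : Lx F J s t (a + a') := by
  obtain ⟨b, h1, h2, h3⟩ := h
  obtain ⟨b', h1', h2', h3'⟩ := h'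
  exact ⟨b + b', add_mem h1 h1', add_mem h2 h2', by
    rw [add_sub_add_comm]; exact add_mem h3 h3'⟩

variable {p : ℕ} [Fact p.Prime]

section Closed

variable {K : Type} [CommRing K] [Fact ((p : K) = 0)] {V : Type} [Fintype V] [DecidableEq V]

/-- `a` is closed and cohomologous to the closed form `h` -/
structure Ch (a h : Om p K V) : Prop where
  cl : Om.d h = 0
  ex : ∃ z, a = Om.d z + h

theorem Ch.mul {a h a' h' : Om p K V} (c : Ch a h) (c' : Ch a' h') : Ch (a * a') (h * h') := by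
  obtain ⟨z, rfl⟩ := c.ex
  obtain ⟨z', rfl⟩ := c'.ex
  refine ⟨by rw [Om.d_mul, c.cl, c'.cl]; simp, z * (Om.d z' + h') + Om.inv h * z', ?_⟩
  rw [map_add, Om.d_mul, Om.d_mul, map_add, Om.d_d, c'.cl, Om.d_inv, c.cl, Om.inv_inv]
  simp only [map_zero, neg_zero, zero_mul, add_zero, mul_zero, zero_add]
  noncomm_ring

theorem Ch.int {a h : Om p K V} (c : Ch a h) : Om.int a = Om.int h := by
  obtain ⟨z, rfl⟩ := c.ex
  rw [map_add, Om.int_d, zero_add]

theorem d_top : Om.d (Om.mon (Om.top p V) univ : Om p K V) = 0 := by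
  rw [Om.d_mon]
  exact sum_eq_zero fun i _ => by rw [sg_of_not (by simp)]; simp

end Closed

section

variable {s V : Type} [Fintype s] [DecidableEq s] [Fintype V] [DecidableEq V]

theorem Ch.pb (φ : O p (ZMod p) s →ₐ[ZMod p] O p (ZMod p) V) {a h : Om p (Au p) s} (c : Ch a h) :
    Ch (PB φ a) (PB φ h) := by
  obtain ⟨z, rfl⟩ := c.ex
  exact ⟨by rw [← PB_d, c.cl, map_zero], PB φ z, by rw [map_add, PB_d]⟩

theorem cu_int (j : ℤ) (ω : Om p (Au p) s) :
    cu (j, Om.top p s, univ) ω = (Om.int ω).coeff j := rfl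

theorem smul_mon_mem {g : Au p} {a : s → ℕ} {S : Finset s} {P : Ix s → Prop}
    (h : ∀ j, g.coeff j ≠ 0 → P (j, a, S)) : g • (Om.mon a S : Om p (Au p) s) ∈ Sb p P := by
  rintro ⟨j, a', S'⟩ hx
  rw [map_smul, Om.co_mon] at hx
  split_ifs at hx with h'
  · obtain ⟨⟨rfl, rfl⟩, -⟩ := h'
    exact h j (by simpa using hx)
  · simp at hx

theorem PB_u (φ : O p (ZMod p) s →ₐ[ZMod p] O p (ZMod p) V) {wu r : ℤ} {ω : Om p (Au p) s}
    (h : ω ∈ (fil p wu 0 0).ge r) : PB φ ω ∈ (fil p wu 0 0).ge r :=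
  PB_mem φ (vz := 0) (vd := 0) (fun _ => bc_mem0 (fun _ => le_rfl) _)
    (fun _ => d_bc_mem0 (fun _ => le_rfl) _) h

end

variable {Γ : Type} [AddCommGroup Γ] {δ : Γ} {s : Fin 3 → Type}
  [∀ i, Fintype (s i)] [∀ i, DecidableEq (s i)] {w : ∀ i, Wall p Γ δ (s i)} {t : Fin 3 → Bool}
  {V : Type} [Fintype V] [DecidableEq V] {N La : ℕ} {v : VxG w t N La V}

theorem PB_io_f (v : VxG w t N La V) (i : Fin 3) {r : ℤ} {ω : Om p (Au p) (s i)}
    (h : ω ∈ (fil p 0 (fq (w i) N (t i)) (fq (w i) N (t i))).ge r) :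
    PB (v.io i) ω ∈ (pf v.FV 1 0).ge r :=
  PB_mem _ (fun x => Fil.mono _ (io_f0 v 1 one_pos 0 i x) (by simp))
    (fun x => Fil.mono _ (io_f1 v 1 one_pos 0 i x) (by simp)) h

theorem Su.lx_h (U : Su v) (i : Fin 3) {h : Om p (Au p) (s i)} (hh : In ((w i).Hm N (t i)) h) :
    Lx (pf v.FV 1 0) (fil p 2 0 0) (wt 0 (fq (w i) N (t i)) (fq (w i) N (t i)) ((w i).h0 (t i) 0)) 0
      (PB (v.io i) h) := by
  refine Sb_ind (P := (w i).Hm N (t i)) (Q := fun h => Lx _ _ _ _ (PB (v.io i) h))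
    (by rw [map_zero]; exact Lx.zero) (fun a b ha hb => by rw [map_add]; exact ha.add hb)
    (fun c x hx hb => ?_) hh
  rcases hm_lt (U.pos i) hb hx with ⟨h1, h2⟩ | h1
  · refine ⟨_, PB_io_f v i (fil_smul (mu_mem ?_) c), PB_u _ (fil_smul (mu_mem ?_) c),
      by rw [sub_self]; exact zero_mem _⟩
    · rw [h1, h0_w, h0_w]
    · simp only [wt, Pi.zero_apply, mul_zero, sum_const_zero]; omega
  · exact ⟨0, zero_mem _, zero_mem _, by
      rw [sub_zero]; exact PB_io_f v i (fil_smul (mu_mem h1) c)⟩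

/-- the exponent of `u` that is read off -/
def Jx (w : ∀ i, Wall p Γ δ (s i)) (t : Fin 3 → Bool) : ℤ :=
  -1 - ((p - 1 : ℕ) : ℤ) * Fintype.card (Bi w t)

theorem Su.lhs (U : Su v) {a h : ∀ i, Om p (Au p) (s i)} (c : ∀ i, Ch (a i) (h i))
    (hh : ∀ i, In ((w i).Hm N (t i)) (h i)) :
    cu (Jx w t, Om.top p V, univ) (PB (v.io 0) (a 0) * PB (v.io 1) (a 1) * PB (v.io 2) (a 2) *
      PB v.rho (O.E ((-T (-1) : Au p) • bc (Au p) v.Q) • Om.e univ)) = 0 := by
  classical
  obtain ⟨g, be, hg, he⟩ := top_form v.Q v.hQ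
  have c4 : Ch (O.E ((-T (-1) : Au p) • bc (Au p) v.Q) • Om.e univ)
      (g • Om.mon (Om.top p (Xi w t)) univ) :=
    ⟨by rw [map_smul, d_top, smul_zero], be, by rw [he, add_comm]⟩
  have := (((((c 0).pb (v.io 0)).mul ((c 1).pb (v.io 1))).mul ((c 2).pb (v.io 2))).mul
    (c4.pb v.rho)).int
  rw [cu_int, this, ← cu_int]
  have l4 : Lx (pf v.FV 1 0) (fil p 2 0 0)
      (∑ q : Xi w t, (((p - 1 : ℕ) : ℤ) * v.FV (v.em q.1) + v.FV (v.em q.1)))
      (-(((p - 1 : ℕ) : ℤ) * (Fintype.card (Xi w t) : ℤ)))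
      (PB v.rho (g • Om.mon (Om.top p (Xi w t)) univ)) := by
    refine ⟨_, PB_mem (wu := 0) _ (vz := fun q => v.FV (v.em q.1)) (vd := fun q => v.FV (v.em q.1))
      (fun q => Fil.mono _ ((nm_rho v q).f0 1 0 one_pos).lt (by simp))
      (fun q => Fil.mono _ ((nm_rho v q).f1 1 0 one_pos).lt (by simp))
      (smul_mon_mem fun j _ => ?_),
      PB_u _ (smul_mon_mem fun j hj => ?_), by rw [sub_self]; exact zero_mem _⟩
    · simp [wt, Om.top, sum_add_distrib]
    · simpa [wt] using hg j hj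
  refine ((((U.lx_h 0 (hh 0)).mul (U.lx_h 1 (hh 1))).mul (U.lx_h 2 (hh 2))).mul l4).eq_zero
    (cu (Jx w t, Om.top p V, univ)) (fun a ha => cu_eq_zero ?_ ha) fun a ha => cu_eq_zero ?_ ha
  · have e := U.sum_eq fun x => ((p - 1 : ℕ) : ℤ) * v.FV x + v.FV x
    have e' : ∀ i, ∑ x ∈ (w i).nr (t i), (((p - 1 : ℕ) : ℤ) * v.FV (v.em (⟨i, x⟩, false)) +
        v.FV (v.em (⟨i, x⟩, false))) =
        wt 0 (fq (w i) N (t i)) (fq (w i) N (t i)) ((w i).h0 (t i) 0) := fun i => by
      rw [h0_w]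
      exact sum_congr rfl fun x hx => by rw [fV_em v (ne_of_nr hx)]
    simp only [e', Fin.sum_univ_three] at e
    rw [← e]
    simp [wt, Om.top, sum_add_distrib]
  · rw [card_xi]
    simp only [wt, Jx, Pi.zero_apply, mul_zero, sum_const_zero]
    push_cast
    linarith

end N255.Vx
end

-- ▼ part N255/Vx/Gc
section

/-! Row 255 (helper61): the Gaussian coefficient and two small coefficient lemmas. -/

set_option autoImplicit false

namespace N255.Vx

open N255.Dr N255.Dr.O N255.Core LaurentPolynomial Finset Function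

section
variable {p : ℕ} {K : Type} [CommRing K] {V : Type} [Fintype V] [DecidableEq V]

theorem gc_cf_zm_mul (r a : V → ℕ) (hr : ∀ v, r v < p) (g : O p K V) :
    cf r (zm a * g) = if ∀ v, a v ≤ r v then cf (r - a) g else 0 := by
  induction g using induction_zm with
  | h0 => simp
  | hadd f g hf hg => rw [mul_add, map_add, hf, hg]; split_ifs <;> simp
  | hm c b hb =>
    rw [mul_smul_comm, ← zm_add, map_smul, cf_zm, map_smul, cf_zm]
    by_cases h : ∀ v, a v ≤ r v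
    · rw [if_pos h]
      congr 1
      refine if_congr ⟨fun h' => ⟨?_, fun i => lt_of_le_of_lt (Nat.sub_le _ _) (hr i)⟩,
        fun h' => ⟨?_, hr⟩⟩ rfl rfl
      · rw [h'.1]; funext i; simp
      · rw [← h'.1]; funext i; have := h i; simp only [Pi.add_apply, Pi.sub_apply]; omega
    · rw [if_neg h, if_neg, smul_zero]
      rintro ⟨h', -⟩
      exact h (by rw [h']; exact fun i => Nat.le_add_right _ _)

omit [DecidableEq V] in
theorem gc_zm_sum {B : Type} (s : Finset B) (a : B → V → ℕ) :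
    (zm (∑ b ∈ s, a b) : O p K V) = ∏ b ∈ s, zm (a b) := by
  classical
  induction s using Finset.induction_on with
  | empty => simp
  | insert b s hb ih => rw [sum_insert hb, prod_insert hb, zm_add, ih]

theorem cub_eq [Fact p.Prime] [Fact ((p : K) = 0)] {x y w : V} (hxy : x ≠ y) (hxw : x ≠ w)
    (hyw : y ≠ w) (f : O p K V) :
    aug (pd x (pd y (pd w f))) = cf (Pi.single x 1 + Pi.single y 1 + Pi.single w 1) f := by
  rw [← cf_zero, cf_pd, cf_pd, cf_pd]
  simp [hxy.symm, hxw.symm, hyw.symm]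

end

theorem ic_ne {p : ℕ} [Fact p.Prime] {n : ℕ} (hn : n < p) : (ic p n : ZMod p) ≠ 0 := by
  intro h
  have := ic_mul_fact (A := ZMod p) (ZMod.natCast_self p) hn
  rw [h, zero_mul] at this
  exact zero_ne_one this

theorem gc_T_sum {p : ℕ} {B : Type} (s : Finset B) (n : B → ℤ) :
    (T (∑ b ∈ s, n b) : Au p) = ∏ b ∈ s, T (n b) := by
  classical
  induction s using Finset.induction_on with
  | empty => simp
  | insert b s hb ih => rw [sum_insert hb, prod_insert hb, T_add, ih]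

theorem gc_coeff {p : ℕ} (a : ZMod p) (m k : ℤ) :
    (C a * T m : Au p).coeff k = if m = k then a else 0 := by
  rw [← single_eq_C_mul_T, AddMonoidAlgebra.coeff_single, Finsupp.single_apply]

theorem cf_gauss {p : ℕ} [Fact p.Prime] {V B : Type} [Fintype V] [DecidableEq V] [Fintype B]
    (yv mv : B → V) (hy : Injective yv) (hm : Injective mv) (hym : ∀ b b', yv b ≠ mv b')
    (c : B → ZMod p) (r r' : V → ℕ) (hr : ∀ v, r v < p) (h1 : ∀ b, r' (yv b) = 0)
    (h2 : ∀ b, r' (mv b) + r (yv b) = r (mv b))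
    (h3 : ∀ v, (∀ b, v ≠ yv b) → (∀ b, v ≠ mv b) → r' v = r v) (f : O p (ZMod p) V) :
    (cf r ((∏ b, tx p ((-T (-1) : Au p) • bc (Au p) (c b • (z (yv b) * z (mv b) : O p (ZMod p) V)))) *
        bc (Au p) f)).coeff (-∑ b, (r (yv b) : ℤ)) =
      (∏ b, (ic p (r (yv b)) : ZMod p) * (-c b) ^ r (yv b)) * cf r' f := by
  classical
  set A : (B → ℕ) → V → ℕ := fun n => ∑ b, (Pi.single (yv b) (n b) + Pi.single (mv b) (n b))
    with hA
  have Ay : ∀ n b, A n (yv b) = n b := fun n b => by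
    simp only [hA, Finset.sum_apply, Pi.add_apply]
    rw [Finset.sum_eq_single b]
    · simp [hym b b]
    · intro b' _ hb
      simp [hym b b', (hy.ne hb).symm]
    · simp
  have Am : ∀ n b, A n (mv b) = n b := fun n b => by
    simp only [hA, Finset.sum_apply, Pi.add_apply]
    rw [Finset.sum_eq_single b]
    · simp [(hym b b).symm]
    · intro b' _ hb
      simp [(hym b' b).symm, (hm.ne hb).symm]
    · simp
  have Ao : ∀ n v, (∀ b, v ≠ yv b) → (∀ b, v ≠ mv b) → A n v = 0 := fun n v a1 a2 => by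
    simp only [hA, Finset.sum_apply, Pi.add_apply]
    exact Finset.sum_eq_zero fun b _ => by simp [a1 b, a2 b]
  have term : ∀ (b : B) (k : ℕ), ((ic p k : O p (Au p) V) *
      ((-T (-1) : Au p) • bc (Au p) (c b • (z (yv b) * z (mv b) : O p (ZMod p) V))) ^ k) =
      (C ((ic p k : ZMod p) * (-c b) ^ k) * T (-(k : ℤ)) : Au p) •
        zm (Pi.single (yv b) k + Pi.single (mv b) k) := fun b k => by
    rw [map_smul, map_mul, bc_z, bc_z, ← algebraMap_smul (Au p) (c b), smul_smul, smul_pow,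
      zm_add, zm_single, zm_single, mul_pow (z (yv b)), ← nsmul_eq_mul,
      ← Nat.cast_smul_eq_nsmul (Au p), smul_smul]
    congr 1
    rw [← C_eq_algebraMap, map_mul, map_pow, map_neg, map_natCast, mul_assoc]
    congr 1
    have : (T (-(k : ℤ)) : Au p) = T (-1) ^ k := by rw [T_pow]; simp
    rw [this, ← mul_pow]
    congr 1
    ring
  have key : (∏ b, tx p ((-T (-1) : Au p) •
      bc (Au p) (c b • (z (yv b) * z (mv b) : O p (ZMod p) V)))) =
      ∑ n ∈ Fintype.piFinset (fun _ : B => range p),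
        (C (∏ b, (ic p (n b) : ZMod p) * (-c b) ^ n b) * T (-∑ b, (n b : ℤ)) : Au p) •
          zm (A n) := by
    simp only [tx]
    rw [Finset.prod_univ_sum]
    refine Finset.sum_congr rfl fun n _ => ?_
    simp only [term]
    rw [Finset.prod_smul, hA, gc_zm_sum, Finset.prod_mul_distrib, map_prod,
      ← Finset.sum_neg_distrib, gc_T_sum]
  rw [key, Finset.sum_mul, map_sum, AddMonoidAlgebra.coeff_sum, Finsupp.finsetSum_apply,
    Finset.sum_eq_single (fun b => r (yv b))]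
  · have hle : ∀ v, A (fun b => r (yv b)) v ≤ r v := fun v => by
      by_cases a1 : ∃ b, v = yv b
      · obtain ⟨b, rfl⟩ := a1; exact (Ay _ b).le
      by_cases a2 : ∃ b, v = mv b
      · obtain ⟨b, rfl⟩ := a2
        rw [Am]; have := h2 b; omega
      push Not at a1 a2
      rw [Ao _ v a1 a2]; exact Nat.zero_le _
    have heq : r - A (fun b => r (yv b)) = r' := funext fun v => by
      rw [Pi.sub_apply]
      by_cases a1 : ∃ b, v = yv b
      · obtain ⟨b, rfl⟩ := a1; rw [Ay, h1]; simp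
      by_cases a2 : ∃ b, v = mv b
      · obtain ⟨b, rfl⟩ := a2
        rw [Am]; have := h2 b; omega
      push Not at a1 a2
      rw [Ao _ v a1 a2, h3 v a1 a2]; simp
    rw [smul_mul_assoc, map_smul, gc_cf_zm_mul _ _ hr, if_pos hle, heq, cf_bc, smul_eq_mul,
      ← C_eq_algebraMap, mul_right_comm, ← map_mul, gc_coeff, if_pos rfl]
  · intro n _ hn
    rw [smul_mul_assoc, map_smul, gc_cf_zm_mul _ _ hr]
    split_ifs with hle
    · rw [cf_bc, smul_eq_mul, ← C_eq_algebraMap, mul_right_comm, ← map_mul, gc_coeff, if_neg]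
      intro he
      have he' : ∑ b, n b = ∑ b, r (yv b) := by exact_mod_cast neg_injective he
      have hb : ∀ b ∈ (univ : Finset B), n b ≤ r (yv b) := fun b _ => by
        rw [← Ay n b]; exact hle _
      exact hn (funext fun b => (Finset.sum_eq_sum_iff_of_le hb).1 he' b (mem_univ b))
    · simp
  · intro h
    exact absurd (Fintype.mem_piFinset.2 fun b => mem_range.2 (hr _)) h

end N255.Vx
end

-- ▼ part N255/Vx/Rhs
section

/-!
# Row 255, vertex count (helper7): exponentials and the leading term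
-/

set_option autoImplicit false
set_option linter.unusedSectionVars false

namespace N255.Vx

open Finset N255.Dr N255.Dr.O N255.Core LaurentPolynomial

variable {p : ℕ} [Fact p.Prime]

section Exp

variable {s V : Type} [Fintype s] [DecidableEq s] [Fintype V] [DecidableEq V]

/-- `- f / u` -/
noncomputable def xu (f : O p (ZMod p) s) : O p (Au p) s := (-T (-1) : Au p) • bc (Au p) f

theorem xu_add (f g : O p (ZMod p) s) : xu (f + g) = xu f + xu g := by
  rw [xu, xu, xu, map_add, smul_add]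

theorem xu_sum {ι : Type*} (S : Finset ι) (f : ι → O p (ZMod p) s) :
    xu (∑ i ∈ S, f i) = ∑ i ∈ S, xu (f i) := by
  simp only [xu, map_sum, smul_sum]

theorem xu_mem {f : O p (ZMod p) s} (h : f ∈ (mx : Ideal (O p (ZMod p) s)) ^ 2) :
    xu f ∈ (mx : Ideal (O p (Au p) s)) ^ 2 := by
  rw [xu, Algebra.smul_def]
  exact Ideal.mul_mem_left _ _ (bc_mem_pow _ h)

theorem up_E (φ : O p (ZMod p) s →ₐ[ZMod p] O p (ZMod p) V) (hφ : ∀ x, φ (z x) ∈ mx)
    {f : O p (ZMod p) s} (h : f ∈ (mx : Ideal (O p (ZMod p) s)) ^ 2) :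
    up φ (O.E (xu f)) = O.E (xu (φ f)) := by
  rw [E_map (up φ) (fun x => by rw [up_z]; exact bc_mem _ (hφ x)) (xu_mem h), xu, xu, map_smul,
    up_bc]

theorem PB_smul (φ : O p (ZMod p) s →ₐ[ZMod p] O p (ZMod p) V) (f : O p (Au p) s)
    (ω : Om p (Au p) s) : PB φ (f • ω) = up φ f • PB φ ω := Om.pb_smul _ _ _

theorem xu_fil {wu r : ℤ} {wz wd : s → ℤ} {f : O p (ZMod p) s}
    (h : (Om.fn (bc (Au p) f) : Om p (Au p) s) ∈ (fil p wu wz wd).ge r) :
    (Om.fn (xu f) : Om p (Au p) s) ∈ (fil p wu wz wd).ge (r - wu) := by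
  rw [xu, Om.fn_smul, neg_smul, Algebra.smul_def]
  exact neg_mem (Fil.mul' _ (T_mem (-1)) h (by omega))

theorem E_xu_sub {wu l : ℤ} (hl : 0 ≤ l) {wz wd : s → ℤ} {f : O p (ZMod p) s}
    (h2 : f ∈ (mx : Ideal (O p (ZMod p) s)) ^ 2)
    (h : ∀ a : s → ℕ, cf a f ≠ 0 → l + wu ≤ ∑ i, a i * wz i) :
    (Om.fn (O.E (xu f)) - 1 - Om.fn (xu f) : Om p (Au p) s) ∈ (fil p wu wz wd).ge (2 * l) := by
  have e : f = ∑ a ∈ (O.box p s).filter fun a => cf a f ≠ 0, cf a f • zm a := by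
    rw [sum_filter_of_ne (p := fun a => cf a f ≠ 0)
      (f := fun a => cf a f • (zm a : O p (ZMod p) s)) fun a _ h h0 => h (by rw [h0, zero_smul]),
      sum_cf]
  have h3 : ∀ a ∈ (O.box p s).filter fun a => cf a f ≠ 0, 2 ≤ ∑ i, a i := fun a ha =>
    by_contra fun h' => (mem_filter.1 ha).2 (cf_eq_zero_of_mem_pow h2 (not_le.1 h'))
  have h4 : ∀ a ∈ (O.box p s).filter fun a => cf a f ≠ 0,
      O.E (xu (cf a f • zm a)) = tx p (xu (cf a f • zm a : O p (ZMod p) s)) := fun a ha => by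
    rw [xu, map_smul, bc_zm, ← algebraMap_smul (Au p) (cf a f), smul_smul]
    exact E_monomial _ (h3 a ha)
  have h5 := Fil.prod_tx (F := (fil p wu wz wd).comap (algebraMap (O p (Au p) s) (Om p (Au p) s)))
    p_zero hl ((O.box p s).filter fun a => cf a f ≠ 0)
    (x := fun a => xu (cf a f • zm a : O p (ZMod p) s)) fun a ha => by
      rw [Fil.mem_comap]
      refine Fil.mono _ (xu_fil (r := l + wu) ?_) (by omega)
      rw [fn_bc_smul, bc_zm]
      exact fil_smul (Fil.mono _ (zm_mem a) (h a (mem_filter.1 ha).2)) _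
  rw [← prod_congr rfl h4, ← E_sum _ _ fun a ha => xu_mem (by
    rw [Algebra.smul_def]
    exact Ideal.mul_mem_left _ _ (Ideal.pow_le_pow_right (h3 a ha) (zm_mem_pow a))), ← xu_sum,
    ← e, Fil.mem_comap, map_sub, map_sub, map_one] at h5
  exact h5

/-- a basis form up to sign -/
def Sq (S : Finset V) (ω : Om p (Au p) V) : Prop := ∃ ε : ℤ, ε * ε = 1 ∧ ω = ε • Om.e S

theorem Sq.mul {S S' : Finset V} {ω ω' : Om p (Au p) V} (h : Sq S ω) (h' : Sq S' ω')
    (hd : Disjoint S S') : Sq (S ∪ S') (ω * ω') := by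
  obtain ⟨ε, h1, rfl⟩ := h
  obtain ⟨ε', h1', rfl⟩ := h'
  refine ⟨ε * ε' * sg S S', ?_, by rw [smul_mul_smul_comm, Om.e_mul, smul_smul]⟩
  linear_combination (ε' * ε' * (sg S S' * sg S S')) * h1 + (sg S S' * sg S S') * h1' +
    sg_mul_self hd

theorem sq_rn (f : s → V) {S : Finset s} (hf : Set.InjOn f S) :
    Sq (S.image f) (PB (p := p) (rn f) (Om.e S)) :=
  Om.pb_e_of_z _ f (fun i _ => by simp) hf

theorem PB_rn_mu (f : s → V) (x : Ix s) : PB (p := p) (rn f) (mu x) =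
    ((T x.1 : Au p) • ∏ i, (z (f i) : O p (Au p) V) ^ x.2.1 i) • PB (rn f) (Om.e x.2.2) := by
  rw [mu, Om.mon, map_smul, PB_smul, smul_assoc]
  simp [zm]

theorem cu_top (j : ℤ) (f : O p (Au p) V) :
    cu (j, Om.top p V, univ) (f • Om.e univ) = (cf (Om.top p V) f).coeff j := by
  rw [cu_apply, Om.co_apply, map_smul, Om.cE_e]
  simp

theorem coeff_T_mul (m j : ℤ) (X : Au p) : (T m * X).coeff j = X.coeff (j - m) := by
  induction X using LaurentPolynomial.induction_on' with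
  | add a b ha hb =>
    rw [mul_add, AddMonoidAlgebra.coeff_add, AddMonoidAlgebra.coeff_add, Finsupp.add_apply,
      Finsupp.add_apply, ha, hb]
  | C_mul_T n a =>
    rw [mul_left_comm, ← T_add, gc_coeff, gc_coeff]
    exact if_congr (by omega) rfl rfl

end Exp

variable {Γ : Type} [AddCommGroup Γ] {δ : Γ} {s : Fin 3 → Type}
  [∀ i, Fintype (s i)] [∀ i, DecidableEq (s i)] {w : ∀ i, Wall p Γ δ (s i)} {t : Fin 3 → Bool}
  {V : Type} [Fintype V] [DecidableEq V] {N La : ℕ} {v : VxG w t N La V}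

theorem sum_bi {M : Type*} [AddCommMonoid M] (g : (Σ i, s i) → M) :
    ∑ b : Bi w t, g b.1 =
      ∑ i, ∑ x, if t i = false ∧ (w i).kd x = none then g ⟨i, x⟩ else 0 := by
  rw [sum_sigma', ← sum_filter (fun q : Σ i, s i => t q.1 = false ∧ (w q.1).kd q.2 = none) g]
  exact (sum_subtype _ (by simp) g).symm

/-- the exponents of the product of the leading monomials -/
def Su.a0 (U : Su v) (al : ∀ i, s i) (x : V) : ℕ :=
  if (U.pr x).2 = false then
    ((w (U.pr x).1.1).ld (t (U.pr x).1.1) (al (U.pr x).1.1)).2.1 (U.pr x).1.2 else 0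

theorem ld_ne {i : Fin 3} {al x : s i} (hal : (w i).kd al = none)
    (h : ((w i).ld (t i) al).2.1 x ≠ 0) : (w i).kd x ≠ some (!t i) := by
  by_cases h1 : x = al
  · rw [h1, hal]; simp
  · refine ne_of_nr (by_contra fun h2 => h ?_)
    simp [Wall.ld, h1, h2]

theorem Su.prod_lead (U : Su v) {al : ∀ i, s i} (hal : ∀ i, (w i).kd (al i) = none) :
    ∏ i, ∏ x, (z (v.em (⟨i, x⟩, false)) : O p (Au p) V) ^ ((w i).ld (t i) (al i)).2.1 x =
      zm (U.a0 al) := by
  classical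
  rw [prod_sigma', zm, ← prod_filter_of_ne (p := fun q : Σ i, s i => Ok w t (q, false))
    fun q _ h => ok_ne (ld_ne (hal q.1) fun h0 => h (by rw [h0, pow_zero]))]
  refine prod_of_injOn (fun q => v.em (q, false)) (fun q hq q' hq' h => ?_) (fun _ _ => by simp)
    (fun x _ hx => ?_) fun q hq => ?_
  · exact congrArg Prod.fst (v.inj (mem_filter.1 hq).2 (mem_filter.1 hq').2 h)
  · rw [Su.a0, if_neg, pow_zero]
    intro h
    refine hx ⟨(U.pr x).1, ?_, ?_⟩
    · simp only [coe_filter, Set.mem_ofPred_eq, mem_sigma, mem_univ, true_and]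
      rw [← h]; exact U.ok x
    · simp only; rw [← h]; exact U.em_pr x
  · rw [Su.a0, U.pr_em (mem_filter.1 hq).2, if_pos rfl]

theorem Su.sq_lead (U : Su v) :
    Sq univ (PB (p := p) (rn fun x => v.em (⟨0, x⟩, false)) (Om.e ((w 0).nr (t 0))) *
      PB (rn fun x => v.em (⟨1, x⟩, false)) (Om.e ((w 1).nr (t 1))) *
      PB (rn fun x => v.em (⟨2, x⟩, false)) (Om.e ((w 2).nr (t 2))) *
      PB (rn fun q : Xi w t => v.em q.1) (Om.e univ)) := by
  classical
  have h1 : ∀ i, Sq (((w i).nr (t i)).image fun x => v.em (⟨i, x⟩, false))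
      (PB (p := p) (rn fun x => v.em (⟨i, x⟩, false)) (Om.e ((w i).nr (t i)))) := fun i =>
    sq_rn _ fun x hx y hy h => by
      simpa using v.inj (ok_ne (ne_of_nr hx)) (ok_ne (ne_of_nr hy)) h
  have h2 := sq_rn (p := p) (fun q : Xi w t => v.em q.1) (S := univ) fun q _ q' _ h =>
    Subtype.ext (v.inj (ok_xi q.2) (ok_xi q'.2) h)
  have m1 : ∀ i x, x ∈ (((w i).nr (t i)).image fun x => v.em (⟨i, x⟩, false)) ↔
      (U.pr x).1.1 = i ∧ ¬ xi w t (U.pr x) := fun i x => by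
    rw [mem_image]
    constructor
    · rintro ⟨y, hy, rfl⟩
      rw [U.pr_em (ok_ne (ne_of_nr hy))]
      exact ⟨rfl, not_xi hy _⟩
    · rintro ⟨rfl, h⟩
      obtain ⟨h3, h4⟩ := (ok_cases (U.ok x)).resolve_left h
      refine ⟨_, h4, ?_⟩
      rw [← h3]; exact U.em_pr x
  have m2 : ∀ x, x ∈ (univ.image fun q : Xi w t => v.em q.1) ↔ xi w t (U.pr x) := fun x => by
    rw [mem_image]
    constructor
    · rintro ⟨q, -, rfl⟩
      rw [U.pr_em (ok_xi q.2)]
      exact q.2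
    · exact fun h => ⟨⟨_, h⟩, mem_univ _, U.em_pr x⟩
  have := (((h1 0).mul (h1 1) ?_).mul (h1 2) ?_).mul h2 ?_
  · convert this using 1
    ext x
    simp only [mem_union, m1, m2, mem_univ, true_iff]
    generalize (U.pr x).1.1 = i
    fin_cases i <;> simp [em']
  all_goals
    rw [disjoint_left]
    intro x
    simp only [mem_union, m1, m2]
    generalize (U.pr x).1.1 = i
    fin_cases i <;> simp

end N255.Vx
end

-- ▼ part N255/Vx/Main
section

/-!
# Row 255, vertex count (helper7): the vertex theorem `VertexG`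
-/

set_option autoImplicit false
set_option linter.unusedSectionVars false

namespace N255.Vx

open Finset N255.Dr N255.Dr.O N255.Core LaurentPolynomial

variable {p : ℕ} [Fact p.Prime] {Γ : Type} [AddCommGroup Γ] {δ : Γ} {s : Fin 3 → Type}
  [∀ i, Fintype (s i)] [∀ i, DecidableEq (s i)] {w : ∀ i, Wall p Γ δ (s i)} {t : Fin 3 → Bool}
  {V : Type} [Fintype V] [DecidableEq V] {N La : ℕ} {v : VxG w t N La V}

/-- the Gaussian term of a pair -/
noncomputable def ga (v : VxG w t N La V) (b : Bi w t) : O p (ZMod p) V :=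
  v.c b.1.1 b.1.2 • (z (v.em (b.1, false)) * z (v.em (b.1, true)))

theorem ga_mem (b : Bi w t) : ga v b ∈ (mx : Ideal (O p (ZMod p) V)) ^ 2 := by
  rw [ga, Algebra.smul_def, pow_two]
  exact Ideal.mul_mem_left _ _ (Ideal.mul_mem_mul (z_mem _) (z_mem _))

theorem E_ga (b : Bi w t) : O.E (xu (ga v b)) = tx p (xu (ga v b)) := by
  have : xu (ga v b) = ((-T (-1) : Au p) • bc (Au p) (v.c b.1.1 b.1.2 •
      (z (v.em (b.1, false)) : O p (ZMod p) V))) * z (v.em (b.1, true)) := by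
    rw [xu, ga, ← smul_mul_assoc, map_mul, bc_z, smul_mul_assoc]
  rw [this]
  refine E_mul ?_ (z_mem _)
  rw [Algebra.smul_def]
  refine Ideal.mul_mem_left _ _ (bc_mem _ ?_)
  rw [Algebra.smul_def]
  exact Ideal.mul_mem_left _ _ (z_mem _)

/-- the Gaussian factor -/
noncomputable def GG (v : VxG w t N La V) : O p (Au p) V := ∏ b, tx p (xu (ga v b))

theorem GG_mem {wu : ℤ} {wz wd : V → ℤ}
    (h : ∀ b : Bi w t, wu ≤ wz (v.em (b.1, false)) + wz (v.em (b.1, true))) :
    (Om.fn (GG v) : Om p (Au p) V) ∈ (fil p wu wz wd).ge 0 := by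
  have := Fil.prod (F := (fil p wu wz wd).comap (algebraMap (O p (Au p) V) (Om p (Au p) V)))
    univ (t := fun _ => 0) (a := fun b : Bi w t => tx p (xu (ga v b))) fun b _ =>
      Fil.tx_mem p (by
        rw [Fil.mem_comap]
        refine Fil.mono _ (xu_fil (r := wu) ?_) (by omega)
        rw [ga, fn_bc_smul, map_mul, bc_z, bc_z, Om.fn, map_mul]
        exact fil_smul (Fil.mul' _ (z_mem' _) (z_mem' _) (h b)) _)
  rw [sum_const_zero] at this
  exact this

/-- the signed potential -/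
noncomputable def sW (v : VxG w t N La V) (i : Fin 3) : O p (ZMod p) V :=
  if t i = true then v.io i (w i).W else -v.io i (w i).W

theorem sW_mem (i : Fin 3) : sW v i ∈ (mx : Ideal (O p (ZMod p) V)) ^ 2 := by
  have := map_mx_pow (v.io i) (io_mx v i) (w i).W2
  unfold sW
  split_ifs
  exacts [this, neg_mem this]

theorem up_Eu (i : Fin 3) : up (v.io i) ((w i).Eu (t i)) = O.E (xu (sW v i)) := by
  unfold Wall.Eu sW
  split_ifs
  · exact up_E _ (io_mx v i) (w i).W2
  · rw [← map_neg, ← up_E _ (io_mx v i) (neg_mem (w i).W2), xu, map_neg, neg_smul_neg]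

theorem E_all : O.E (xu (sW v 0)) * O.E (xu (sW v 1)) * O.E (xu (sW v 2)) *
    (GG v * O.E (xu v.Ps)) = up v.rho (O.E (xu v.Q)) := by
  have h1 : ∑ b, ga v b = ∑ i, ∑ x, (if t i = false ∧ (w i).kd x = none then
      v.c i x • (z (v.em (⟨i, x⟩, false)) * z (v.em (⟨i, x⟩, true))) else 0) :=
    sum_bi (w := w) (t := t) fun q => v.c q.1 q.2 • (z (v.em (q, false)) * z (v.em (q, true)))
  have h2 : ∑ i, sW v i + ∑ b, ga v b + v.Ps = v.rho v.Q := by rw [h1]; exact v.eq
  have h3 : GG v = O.E (xu (∑ b, ga v b)) := by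
    rw [xu_sum, E_sum _ _ fun b _ => xu_mem (ga_mem b), GG]
    exact prod_congr rfl fun b _ => (E_ga b).symm
  have m1 : ∑ i, sW v i ∈ (mx : Ideal (O p (ZMod p) V)) ^ 2 := sum_mem fun i _ => sW_mem i
  have m2 : ∑ b, ga v b ∈ (mx : Ideal (O p (ZMod p) V)) ^ 2 := sum_mem fun b _ => ga_mem b
  rw [up_E _ (fun q => (nm_rho v q).mx) v.hQ, ← h2, xu_add, xu_add,
    E_add (add_mem (xu_mem m1) (xu_mem m2)) (xu_mem v.Ps2), E_add (xu_mem m1) (xu_mem m2), ← h3,
    xu_sum, E_sum _ _ fun i _ => xu_mem (sW_mem i), Fin.prod_univ_three, mul_assoc _ (GG v)]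

namespace Su

variable (U : Su v) {al : ∀ i, s i}

theorem eta_w {i : Fin 3} {al : s i} (hal : (w i).kd al = none) (hG : (w i).Gd N La (t i) al)
    {η : Om p (Au p) (s i)} (h : In ((w i).Lt N La (t i) al) (η - mu ((w i).ld (t i) al))) :
    U.WW.Cg (wt (4 * La + 1) (vq (w i) N La (t i)) (fun x => 2 * fq (w i) N (t i) x)
      ((w i).ld (t i) al)) (PB (v.io i) η)
      (PB (rn fun x => v.em (⟨i, x⟩, false)) (mu ((w i).ld (t i) al))) := by
  have h1 := cg_mu (wu := 4 * La + 1) (wz := U.wV) (wd := fun x => ((2 : ℕ) : ℤ) * v.FV x)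
    (v.io i) (rn fun x => v.em (⟨i, x⟩, false)) (vz := vq (w i) N La (t i))
    (vd := fun x => 2 * fq (w i) N (t i) x) ((w i).ld (t i) al)
    (fun x hx => by rw [rn_z]; exact U.cg_w0 (ld_ne hal hx))
    fun x hx => by
      rw [rn_z, ← fV_em v (ne_of_nr hx)]; exact U.cg_w1 (nm_io v (ne_of_nr hx))
  refine Fil.Cg.trans ⟨h1.lt, ?_⟩ h1
  rw [← map_sub]
  exact PB_mem _ (U.io_w0 i) (U.io_w1 i) (Sb_mono (fun x hb hx => lt_w hG hal hb hx) h)


theorem th_w : U.WW.Cg (∑ q : Xi w t, 2 * (v.FV (v.em q.1) : ℤ)) (PB v.rho (Om.e univ))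
    (PB (rn fun q : Xi w t => v.em q.1) (Om.e univ)) :=
  cg_e (F := U.WW) (PB v.rho).toRingHom (PB (rn fun q : Xi w t => v.em q.1)).toRingHom univ
    fun q _ => by simpa [PB_dz] using U.cg_w1 (nm_rho v q)

theorem th_j : PB v.rho (Om.e univ) ∈ U.JJ.ge 0 := by
  have := (cg_e (F := U.JJ) (PB v.rho).toRingHom (PB v.rho).toRingHom (wd := fun _ => 0) univ
    fun q _ => Fil.Cg.refl (by
      simpa [PB_dz] using d_bc_mem0 (wu := 1) U.jV_nonneg (v.rho (z q)))).lt
  simpa using this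

theorem jV_y (b : Bi w t) : U.jV (v.em (b.1, false)) = 1 := by
  rw [jV, U.pr_em (ok_xi (q := (b.1, false)) b.2), if_pos ⟨b.2, rfl⟩]

theorem jV_m (b : Bi w t) : U.jV (v.em (b.1, true)) = 0 := by
  rw [jV, U.pr_em (ok_xi (q := (b.1, true)) b.2), if_neg (by simp)]

theorem wV_y (b : Bi w t) : U.wV (v.em (b.1, false)) = 2 * La + 1 := by
  rw [wV, U.jV_y, U.pr_em (ok_xi (q := (b.1, false)) b.2), if_pos b.2.2]

theorem wV_m (b : Bi w t) : U.wV (v.em (b.1, true)) = 2 * La := by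
  rw [wV, U.jV_m, U.pr_em (ok_xi (q := (b.1, true)) b.2), if_pos b.2.2, add_zero]


theorem tgt_w (hal : ∀ i, (w i).kd (al i) = none) :
    wt (4 * La + 1) U.wV (fun x => ((2 : ℕ) : ℤ) * v.FV x) (Jx (p := p) w t, Om.top p V, univ) =
      ∑ i, wt (4 * La + 1) (vq (w i) N La (t i)) (fun x => 2 * fq (w i) N (t i) x)
        ((w i).ld (t i) (al i)) + ∑ q : Xi w t, 2 * (v.FV (v.em q.1) : ℤ) + (2 * La - 1) := by
  have e := U.sum_eq fun x => ((p - 1 : ℕ) : ℤ) * U.wV x + 2 * v.FV x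
  have e1 : ∀ i, ∑ x ∈ (w i).nr (t i), (((p - 1 : ℕ) : ℤ) * U.wV (v.em (⟨i, x⟩, false)) +
      2 * v.FV (v.em (⟨i, x⟩, false))) = wt (4 * La + 1) (vq (w i) N La (t i))
        (fun x => 2 * fq (w i) N (t i) x) ((w i).ld (t i) (al i)) + 2 * La := fun i => by
    rw [ld_w (hal i), sub_add_cancel]
    exact sum_congr rfl fun x hx => by rw [fV_em v (ne_of_nr hx), U.wV_em (ne_of_nr hx)]
  have e2 : ∑ q : Xi w t, U.wV (v.em q.1) = Fintype.card (Bi w t) * (4 * La + 1) := by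
    rw [sum_xi, sum_congr rfl fun b _ => (by
      change U.wV (v.em (b.1, false)) + U.wV (v.em (b.1, true)) = 4 * La + 1
      rw [U.wV_y, U.wV_m]; ring), sum_const, card_univ, nsmul_eq_mul]
  simp only [e1, sum_add_distrib, ← mul_sum, e2, sum_const, card_univ, Fintype.card_fin] at e
  simp only [wt, Om.top, Jx, ← mul_sum] at e ⊢
  push_cast at e ⊢
  linear_combination e

theorem tgt_j : wt 1 U.jV 0 (Jx (p := p) w t, Om.top p V, univ) < 0 := by
  have e := U.sum_eq U.jV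
  have e1 : ∀ i, ∑ x ∈ (w i).nr (t i), U.jV (v.em (⟨i, x⟩, false)) = 0 := fun i =>
    sum_eq_zero fun x hx => by rw [U.jV_em (ne_of_nr hx), jq_nr hx]
  have e2 : ∑ q : Xi w t, U.jV (v.em q.1) = Fintype.card (Bi w t) := by
    rw [sum_xi, sum_congr rfl fun b _ => (by
      change U.jV (v.em (b.1, false)) + U.jV (v.em (b.1, true)) = 1
      rw [U.jV_y, U.jV_m]; ring), sum_const, card_univ, nsmul_eq_mul, mul_one]
  simp only [e1, e2, sum_const_zero, zero_add] at e
  simp only [wt, Om.top, Jx, ← mul_sum, e, Pi.zero_apply, sum_const_zero]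
  linarith

theorem a0_em {i : Fin 3} {x : s i} (h : (w i).kd x ≠ some (!t i)) :
    U.a0 al (v.em (⟨i, x⟩, false)) = ((w i).ld (t i) (al i)).2.1 x := by
  rw [a0, U.pr_em (ok_ne h), if_pos rfl]

theorem a0_m (b : Bi w t) : U.a0 al (v.em (b.1, true)) = 0 := by
  rw [a0, U.pr_em (ok_xi (q := (b.1, true)) b.2), if_neg (by simp)]

theorem a0_le (x : V) : U.a0 al x ≤ p - 1 := by
  have hp := (Fact.out : p.Prime).two_le
  simp only [a0, Wall.ld]
  split_ifs <;> omega

end Su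

theorem ok_n {al : ∀ i, s i} (hal : ∀ i, (w i).kd (al i) = none) (i : Fin 3) :
    Ok w t (⟨i, al i⟩, !t i) := by
  cases h : t i
  · exact Or.inr ⟨rfl, h, hal i⟩
  · exact Or.inl ⟨rfl, by simp [hal i]⟩

theorem r_em {al : ∀ i, s i} (hal : ∀ i, (w i).kd (al i) = none) {i : Fin 3} {x : s i} {b : Bool}
    (h : Ok w t (⟨i, x⟩, b)) :
    (∑ j, Pi.single (v.em (⟨j, al j⟩, !t j)) 1 : V → ℕ) (v.em (⟨i, x⟩, b)) =
      if x = al i ∧ b = !t i then 1 else 0 := by
  rw [Finset.sum_apply, sum_eq_single i]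
  · rw [Pi.single_apply]
    refine if_congr ⟨fun h' => ?_, by rintro ⟨rfl, rfl⟩; rfl⟩ rfl rfl
    simpa using v.inj h (ok_n hal i) h'
  · intro j _ hj
    refine Pi.single_eq_of_ne (fun h' => hj ?_) _
    exact (congrArg (fun q => q.1.1) (v.inj h (ok_n hal j) h')).symm
  · simp

theorem Su.gauss (U : Su v) {al : ∀ i, s i} (hal : ∀ i, (w i).kd (al i) = none) :
    ∃ c : ZMod p, c ≠ 0 ∧ (cf (Om.top p V - U.a0 al) (GG v * bc (Au p) v.Ps)).coeff
      (Jx (p := p) w t - (∑ i, ((w i).ld (t i) (al i)).1 - 1)) = c * v.cub al := by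
  have hp := (Fact.out : p.Prime).two_le
  have oy : ∀ b : Bi w t, Ok w t (b.1, false) := fun b => ok_xi (q := (b.1, false)) b.2
  have om : ∀ b : Bi w t, Ok w t (b.1, true) := fun b => ok_xi (q := (b.1, true)) b.2
  have ky : ∀ b : Bi w t, (w b.1.1).kd b.1.2 ≠ some (!t b.1.1) := fun b => by rw [b.2.2]; simp
  have hr : ∀ x, (Om.top p V - U.a0 al) x < p := fun x => by
    simp only [Pi.sub_apply, Om.top]; omega
  have := cf_gauss (fun b : Bi w t => v.em (b.1, false)) (fun b : Bi w t => v.em (b.1, true))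
    (fun b b' h => Subtype.ext (congrArg Prod.fst (v.inj (oy b) (oy b') h)))
    (fun b b' h => Subtype.ext (congrArg Prod.fst (v.inj (om b) (om b') h)))
    (fun b b' h => by simpa using congrArg Prod.snd (v.inj (oy b) (om b') h))
    (fun b => v.c b.1.1 b.1.2) (Om.top p V - U.a0 al)
    (∑ j, Pi.single (v.em (⟨j, al j⟩, !t j)) 1) hr
    (fun b => by rw [r_em hal (oy b), if_neg (by simp [b.2.1])])
    (fun b => by
      have hn : b.1.2 ∉ (w b.1.1).nr (t b.1.1) := fun h => not_xi h true b.2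
      simp only [Pi.sub_apply, Om.top]
      rw [r_em hal (om b), U.a0_m, U.a0_em (ky b)]
      simp only [Wall.ld, hn]
      by_cases h : b.1.2 = al b.1.1 <;> simp [h, b.2.1]
      omega)
    (fun x h1 h2 => by
      have h3 := U.em_pr x
      have h4 := U.ok x
      generalize U.pr x = q at h3 h4
      obtain ⟨⟨i, y⟩, b⟩ := q
      subst h3
      rcases ok_cases h4 with h5 | ⟨h5, h6⟩
      · cases b
        exacts [absurd rfl (h1 ⟨_, h5⟩), absurd rfl (h2 ⟨_, h5⟩)]
      simp only at h5 h6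
      subst h5
      simp only [Pi.sub_apply, Om.top]
      rw [r_em hal h4, U.a0_em (ne_of_nr h6)]
      simp only [Wall.ld, h6]
      by_cases h : y = al i
      · subst h
        have : t i = true := by simpa [mem_nr, hal i] using h6
        simp [this]
        omega
      · simp [h]) v.Ps
  have hne : ∀ i j : Fin 3, i ≠ j → v.em (⟨i, al i⟩, !t i) ≠ v.em (⟨j, al j⟩, !t j) :=
    fun i j hij h => hij (congrArg (fun q => q.1.1) (v.inj (ok_n hal i) (ok_n hal j) h))
  rw [Fin.sum_univ_three, ← cub_eq (hne 0 1 (by simp)) (hne 0 2 (by simp)) (hne 1 2 (by simp))]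
    at this
  refine ⟨_, prod_ne_zero_iff.2 fun b _ => mul_ne_zero (ic_ne (hr _))
    (pow_ne_zero _ (neg_ne_zero.2 (v.hc _ _ b.2.1 b.2.2))), Eq.trans ?_ this⟩
  congr 1
  have e1 : ∀ b : Bi w t, (((Om.top p V - U.a0 al) (v.em (b.1, false)) : ℕ) : ℤ) =
      ((p - 1 : ℕ) : ℤ) - ((w b.1.1).ld (t b.1.1) (al b.1.1)).2.1 b.1.2 := fun b => by
    rw [← U.a0_em (ky b)]
    exact Nat.cast_sub (U.a0_le _)
  have e2 := sum_bi (w := w) (t := t) fun q => (((w q.1).ld (t q.1) (al q.1)).2.1 q.2 : ℤ)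
  have e3 := sum_eq_zero (s := univ) fun i _ => ld_j (w := w i) (b := t i) (hal i)
  simp only [Wall.jw, sum_add_distrib] at e3
  simp only [e1, sum_sub_distrib, e2, sum_const, card_univ, nsmul_eq_mul, Jx]
  linear_combination -e3

theorem Su.val (U : Su v) {al : ∀ i, s i} (hal : ∀ i, (w i).kd (al i) = none)
    (h : cu (Jx (p := p) w t, Om.top p V, univ)
      (PB (rn fun x => v.em (⟨0, x⟩, false)) (mu ((w 0).ld (t 0) (al 0))) *
      PB (rn fun x => v.em (⟨1, x⟩, false)) (mu ((w 1).ld (t 1) (al 1))) *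
      PB (rn fun x => v.em (⟨2, x⟩, false)) (mu ((w 2).ld (t 2) (al 2))) *
      PB (rn fun q : Xi w t => v.em q.1) (Om.e univ) *
      (Om.fn (GG v) * Om.fn (xu v.Ps))) = 0) : v.cub al = 0 := by
  obtain ⟨ε, h1, h2⟩ := U.sq_lead
  obtain ⟨c, hc, h3⟩ := U.gauss hal
  have h4 := U.prod_lead hal
  rw [Fin.prod_univ_three] at h4
  rw [PB_rn_mu, PB_rn_mu, PB_rn_mu, ← map_mul, Om.mul_fn, smul_mul_smul_comm, smul_mul_smul_comm,
    smul_mul_assoc, smul_smul] at h
  erw [h2] at h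
  rw [smul_comm, map_zsmul, cu_top, smul_mul_smul_comm, smul_mul_smul_comm, h4, xu,
    mul_smul_comm _ (GG v), smul_mul_smul_comm, map_smul, mul_comm _ (zm _),
    gc_cf_zm_mul (Om.top p V) _ (fun _ => Nat.sub_lt (Fact.out : p.Prime).pos one_pos),
    if_pos (show ∀ x, U.a0 al x ≤ Om.top p V x from U.a0_le),
    smul_eq_mul, neg_mul, neg_mul, ← T_add, ← T_add, ← T_add, AddMonoidAlgebra.coeff_neg,
    Finsupp.neg_apply, coeff_T_mul] at h
  rw [Fin.sum_univ_three, sub_eq_neg_add _ (1 : ℤ)] at h3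
  rw [h3, zsmul_eq_mul] at h
  have h5 : (ε : ZMod p) * ε = 1 := by exact_mod_cast congrArg (Int.cast : ℤ → ZMod p) h1
  refine (mul_eq_zero.1 (?_ : c * v.cub al = 0)).resolve_left hc
  linear_combination (-ε) * h - (c * v.cub al) * h5


end N255.Vx
end

-- ▼ part N255/Core/GenD
section

/-! Row 255 (helper76): `VxH` with a defect `De` of the Gaussian term; `VxD`, `VertexD`, `CoreD`. -/

set_option autoImplicit false

namespace N255.Core

open N255.Dr N255.Dr.O Finset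

variable {p : ℕ} [hp : Fact p.Prime] {Γ : Type} [AddCommGroup Γ] {δ : Γ}
  {s : Fin 3 → Type} [∀ i, Fintype (s i)]

open Classical in
/-- the indicator of the copies of the variables `y` of the `L` slots -/
noncomputable def yL (w : ∀ i, Wall p Γ δ (s i)) (t : Fin 3 → Bool) {V : Type}
    (em : (Σ i, s i) × Bool → V) (v : V) : ℕ :=
  if ∃ i x, t i = false ∧ (w i).kd x = none ∧ v = em (⟨i, x⟩, false) then 1 else 0


/-- A vertex identity with pure weights `FV` and one weight `om i ≤ FV` per slot.  Outside the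
small set `Bad` foreign variables are cheap for `om i`.  Extra variables are allowed. -/
structure VxD (w : ∀ i, Wall p Γ δ (s i)) (t : Fin 3 → Bool) (N La : ℕ) (V : Type)
    [Fintype V] where
  em : (Σ i, s i) × Bool → V
  inj : Set.InjOn em {q | Ok w t q}
  FV : V → ℕ
  hF : ∀ i x, Ok w t (⟨i, x⟩, false) → FV (em (⟨i, x⟩, false)) = N + (w i).F x
  hm : ∀ i x, Ok w t (⟨i, x⟩, true) → 0 < FV (em (⟨i, x⟩, true)) ∧ FV (em (⟨i, x⟩, true)) ≤ La
  om : Fin 3 → V → ℕ
  om_le : ∀ i v, om i v ≤ FV v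
  om_em : ∀ i x, Ok w t (⟨i, x⟩, false) → om i (em (⟨i, x⟩, false)) = N + (w i).F x
  Bad : Finset V
  cheap : ∀ i q, Ok w t q → q.1.1 ≠ i → em q ∉ Bad → 3 * om i (em q) ≤ FV (em q)
  bad : ∀ q : Xi w t, em q.1 ∈ Bad
  small : 4 * (p * ∑ v ∈ Bad, FV v) < La
  io : ∀ i, O p (ZMod p) (s i) →ₐ[ZMod p] O p (ZMod p) V
  near : ∀ i x, (w i).kd x ≠ some (!t i) →
    Hi (om i) (N + (w i).F x) (io i (z x) - z (em (⟨i, x⟩, false)))
  far : ∀ i x, (w i).kd x = some (!t i) → Hi (om i) (N + (w i).F x) (io i (z x))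
  hy : ∀ i x, (w i).kd x = none →
    Hi (vw w t La em FV) La (io i (z x) - z (em (⟨i, x⟩, false)))
  hyL : ∀ i x, t i = false → (w i).kd x = none →
    io i (z x) - z (em (⟨i, x⟩, false)) ∈ Ge (yi w em i) 1
  rho : O p (ZMod p) (Xi w t) →ₐ[ZMod p] O p (ZMod p) V
  hrho : ∀ q : Xi w t, Hi FV (FV (em q.1)) (rho (z q) - z (em q.1))
  Q : O p (ZMod p) (Xi w t)
  hQ : Q ∈ (mx : Ideal (O p (ZMod p) (Xi w t))) ^ 2
  c : ∀ i, s i → ZMod p
  hc : ∀ i x, t i = false → (w i).kd x = none → c i x ≠ 0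
  Ps : O p (ZMod p) V
  Ps2 : Ps ∈ (mx : Ideal (O p (ZMod p) V)) ^ 2
  hPs : Ps ∈ Ge (vw w t La em FV) (3 * La)
  De : O p (ZMod p) V
  De2 : De ∈ (mx : Ideal (O p (ZMod p) V)) ^ 2
  hDe : Hi (vw w t La em FV) (2 * La) De
  hDeL : De ∈ Ge (yL w t em) 1
  eq : ∑ i, (if t i = true then io i (w i).W else -io i (w i).W) +
    ∑ i, ∑ x, (if t i = false ∧ (w i).kd x = none then
      c i x • (z (em (⟨i, x⟩, false)) * z (em (⟨i, x⟩, true))) else 0) + De + Ps = rho Q

/-- the trilinear coefficient -/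
noncomputable def VxD.cub {w : ∀ i, Wall p Γ δ (s i)} {t : Fin 3 → Bool} {N La : ℕ} {V : Type}
    [Fintype V] (v : VxD w t N La V) (al : ∀ i, s i) : ZMod p :=
  aug (pd (v.em (⟨0, al 0⟩, !t 0)) (pd (v.em (⟨1, al 1⟩, !t 1)) (pd (v.em (⟨2, al 2⟩, !t 2)) v.Ps)))

/-- the vertex theorem with one weight per slot -/
def VertexD : Prop :=
  ∀ (p : ℕ) [Fact p.Prime] (Γ : Type) [AddCommGroup Γ] (δ : Γ) (s : Fin 3 → Type)
    [∀ i, Fintype (s i)] [∀ i, DecidableEq (s i)] (w : ∀ i, Wall p Γ δ (s i)) (t : Fin 3 → Bool)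
    (N La : ℕ) (V : Type) [Fintype V] (v : VxD w t N La V) (al : ∀ i, s i),
    (∀ i, (w i).kd (al i) = none) → (∀ i, (w i).Gh N La (t i) (al i)) →
    (∀ i, (w i).Test N La (t i) (al i)) → v.cub al = 0




variable {w : ∀ i, Wall p Γ δ (s i)} {t : Fin 3 → Bool} {N La : ℕ} {V : Type} [Fintype V]

/-- no defect -/
noncomputable def VxH.toD (v : VxH w t N La V) : VxD w t N La V where
  em := v.em
  inj := v.inj
  FV := v.FV
  hF := v.hF
  hm := v.hm
  om := v.om
  om_le := v.om_le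
  om_em := v.om_em
  Bad := v.Bad
  cheap := v.cheap
  bad := v.bad
  small := v.small
  io := v.io
  near := v.near
  far := v.far
  hy := v.hy
  hyL := v.hyL
  rho := v.rho
  hrho := v.hrho
  Q := v.Q
  hQ := v.hQ
  c := v.c
  hc := v.hc
  Ps := v.Ps
  Ps2 := v.Ps2
  hPs := v.hPs
  De := 0
  De2 := zero_mem _
  hDe := hi_iff.2 (zero_mem _)
  hDeL := zero_mem _
  eq := by rw [add_zero]; exact v.eq

theorem vertexH_of (h : VertexD) : VertexH := fun p _ Γ _ δ s _ _ w t N La V _ v al =>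
  h p Γ δ s w t N La V v.toD al

namespace VxD

variable (v : VxD w t N La V)

/-- the variables that are not extra -/
def Us (x : V) : Prop := ∃ q, Ok w t q ∧ v.em q = x

open Classical in
/-- the indexing of the variables that are not extra -/
noncomputable def em' (x0 : {x // v.Us x}) (q : (Σ i, s i) × Bool) : {x // v.Us x} :=
  if h : Ok w t q then ⟨v.em q, q, h, rfl⟩ else x0

theorem em'_val (x0 : {x // v.Us x}) {q : (Σ i, s i) × Bool} (h : Ok w t q) :
    (v.em' x0 q).1 = v.em q := by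
  rw [em', dif_pos h]

theorem kill_em (x0 : {x // v.Us x}) {q : (Σ i, s i) × Bool} (h : Ok w t q) :
    kill v.Us (z (v.em q) : O p (ZMod p) V) = z (v.em' x0 q) := by
  rw [kill_z ⟨q, h, rfl⟩, em', dif_pos h]

theorem vw_le (x0 x : {x // v.Us x}) :
    vw w t La v.em v.FV x.1 ≤ vw w t La (v.em' x0) (fun x => v.FV x.1) x := by
  have e : (∃ i y, (w i).kd y = some (t i) ∧ x.1 = v.em (⟨i, y⟩, false)) ↔
      ∃ i y, (w i).kd y = some (t i) ∧ x = v.em' x0 (⟨i, y⟩, false) :=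
    exists_congr fun i => exists_congr fun y => and_congr_right fun hy => by
      rw [Subtype.ext_iff, v.em'_val x0 (ok_near hy)]
  unfold vw
  by_cases h : ∃ i y, (w i).kd y = some (t i) ∧ x.1 = v.em (⟨i, y⟩, false)
  · rw [if_pos h, if_pos (e.1 h)]
  · rw [if_neg h, if_neg fun h' => h (e.2 h')]

theorem yi_le (x0 : {x // v.Us x}) (i : Fin 3) (x : {x // v.Us x}) :
    yi w v.em i x.1 ≤ yi w (v.em' x0) i x := by
  unfold yi
  split_ifs with h1 h2
  · rfl
  · obtain ⟨y, h3, h4⟩ := h1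
    exact absurd ⟨y, h3, Subtype.ext (h4.trans (v.em'_val x0 (ok_y h3)).symm)⟩ h2
  all_goals simp

theorem yL_le (x0 x : {x // v.Us x}) : yL w t v.em x.1 ≤ yL w t (v.em' x0) x := by
  unfold yL
  split_ifs with h1 h2
  · rfl
  · obtain ⟨i, y, h, h3, h4⟩ := h1
    exact absurd ⟨i, y, h, h3, Subtype.ext (h4.trans (v.em'_val x0 (ok_y h3)).symm)⟩ h2
  all_goals simp

theorem ok_of {i : Fin 3} {x : s i} (h : (w i).kd x ≠ some (!t i)) :
    Ok w t (⟨i, x⟩, false) := by
  rcases hk : (w i).kd x with _ | b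
  · exact ok_y hk
  · refine ok_near (hk.trans ?_)
    rw [hk] at h
    cases b <;> cases ht : t i <;> simp_all

open Classical in
/-- the vertex identity without extra variables -/
noncomputable def red [Fintype {x // v.Us x}] (x0 : {x // v.Us x}) :
    VxD w t N La {x // v.Us x} where
  em := v.em' x0
  inj := fun q hq q' hq' e => v.inj hq hq' (by
    rw [← v.em'_val x0 hq, ← v.em'_val x0 hq', e])
  FV x := v.FV x.1
  hF i x h := by rw [v.em'_val x0 h, v.hF i x h]
  hm i x h := by rw [v.em'_val x0 h]; exact v.hm i x h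
  om i x := v.om i x.1
  om_le i x := v.om_le i x.1
  om_em i x h := by rw [v.em'_val x0 h, v.om_em i x h]
  Bad := v.Bad.subtype v.Us
  cheap i q h h1 h2 := by
    rw [mem_subtype, v.em'_val x0 h] at h2
    rw [v.em'_val x0 h]
    exact v.cheap i q h h1 h2
  bad q := by rw [mem_subtype, v.em'_val x0 (ok_xi q)]; exact v.bad q
  small := by
    refine lt_of_le_of_lt (Nat.mul_le_mul_left _ (Nat.mul_le_mul_left _ ?_)) v.small
    rw [sum_subtype_eq_sum_filter]
    exact sum_le_sum_of_subset (filter_subset _ _)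
  io i := (kill v.Us).comp (v.io i)
  near i x h := by
    have := kill_Ge v.Us (FV' := fun x => v.om i x.1) (fun _ => le_rfl) (v.near i x h)
    rwa [map_sub, v.kill_em x0 (ok_of h)] at this
  far i x h := kill_Ge v.Us (FV' := fun x => v.om i x.1) (fun _ => le_rfl) (v.far i x h)
  hy i x h := by
    have := kill_Ge v.Us (v.vw_le x0) (v.hy i x h)
    rwa [map_sub, v.kill_em x0 (ok_y h)] at this
  hyL i x h1 h := by
    have := kill_Ge v.Us (v.yi_le x0 i) (v.hyL i x h1 h)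
    rwa [map_sub, v.kill_em x0 (ok_y h)] at this
  rho := (kill v.Us).comp v.rho
  hrho q := by
    have := kill_Ge v.Us (FV' := fun x => v.FV x.1) (fun _ => le_rfl) (v.hrho q)
    rw [map_sub, v.kill_em x0 (ok_xi q)] at this
    rw [v.em'_val x0 (ok_xi q)]
    exact this
  Q := v.Q
  hQ := v.hQ
  c := v.c
  hc := v.hc
  Ps := kill v.Us v.Ps
  Ps2 := map_mx_pow _ (kill_z_mem _) v.Ps2
  hPs := kill_Ge v.Us (v.vw_le x0) v.hPs
  De := kill v.Us v.De
  De2 := map_mx_pow _ (kill_z_mem _) v.De2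
  hDe := kill_Ge v.Us (v.vw_le x0) v.hDe
  hDeL := kill_Ge v.Us (v.yL_le x0) v.hDeL
  eq := by
    have h := congrArg (kill v.Us) v.eq
    rw [map_add, map_add, map_add, map_sum, map_sum] at h
    rw [AlgHom.comp_apply, ← h]
    congr 3
    · refine Finset.sum_congr rfl fun i _ => ?_
      split_ifs <;> simp
    · refine Finset.sum_congr rfl fun i _ => ?_
      rw [map_sum]
      refine Finset.sum_congr rfl fun x _ => ?_
      split_ifs with hx
      · rw [map_smul, map_mul, v.kill_em x0 (ok_y hx.2), v.kill_em x0 (ok_m hx.1 hx.2)]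
      · simp

theorem red_onto [Fintype {x // v.Us x}] (x0 x : {x // v.Us x}) :
    ∃ q, Ok w t q ∧ (v.red x0).em q = x := by
  obtain ⟨x, q, hq, rfl⟩ := x
  exact ⟨q, hq, Subtype.ext (v.em'_val x0 hq)⟩

theorem red_cub [Fintype {x // v.Us x}] (x0 : {x // v.Us x}) {al : ∀ i, s i}
    (h : ∀ i, (w i).kd (al i) = none) : (v.red x0).cub al = v.cub al := by
  simp only [cub, red]
  rw [pd_kill, pd_kill, pd_kill, aug_kill, v.em'_val x0 (ok_dir (h 0)),
    v.em'_val x0 (ok_dir (h 1)), v.em'_val x0 (ok_dir (h 2))]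

end VxD

end N255.Core
end

-- ▼ part N255/Vh/Wg
section

/-!
# Row 255 (helper76): vertex count with one weight per slot, weights on one wall
-/

set_option autoImplicit false
set_option linter.unusedSectionVars false

namespace N255.Vh

open Finset N255.Dr N255.Dr.O N255.Core N255.Vx LaurentPolynomial

/-- two filtrations with a gap `g` -/
def Lg {B : Type*} [Ring B] (F J : Fil B) (g s : ℤ) (a : B) : Prop :=
  ∃ b, b ∈ F.ge s ∧ b ∈ J.ge 0 ∧ a - b ∈ F.ge (s + g)

section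

variable {B : Type*} [Ring B] {F J : Fil B} {g s s' : ℤ} {a a' : B}

theorem Lg.of (h : a ∈ F.ge s) (h' : a ∈ J.ge 0) : Lg F J g s a :=
  ⟨a, h, h', by rw [sub_self]; exact zero_mem _⟩

theorem Lg.of' (h : a ∈ F.ge (s + g)) : Lg F J g s a :=
  ⟨0, zero_mem _, zero_mem _, by rwa [sub_zero]⟩

theorem Lg.add (h : Lg F J g s a) (h' : Lg F J g s a') : Lg F J g s (a + a') := by
  obtain ⟨b, h1, h2, h3⟩ := h
  obtain ⟨b', h1', h2', h3'⟩ := h'
  exact ⟨b + b', add_mem h1 h1', add_mem h2 h2', by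
    rw [add_sub_add_comm]; exact add_mem h3 h3'⟩

theorem Lg.mul (hg : 0 ≤ g) (h : Lg F J g s a) (h' : Lg F J g s' a') :
    Lg F J g (s + s') (a * a') := by
  obtain ⟨b, h1, h2, h3⟩ := h
  obtain ⟨b', h1', h2', h3'⟩ := h'
  refine ⟨b * b', F.mul h1 h1', J.mul' h2 h2' (by omega), ?_⟩
  have h4 : a' ∈ F.ge s' := by simpa using add_mem (F.mono h3' (by omega : s' ≤ s' + g)) h1'
  have : a * a' - b * b' = (a - b) * a' + b * (a' - b') := by noncomm_ring
  rw [this]
  exact add_mem (F.mul' h3 h4 (by omega)) (F.mul' h1 h3' (by omega))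

theorem Lg.eq_zero {M : Type*} [AddCommGroup M] (I : B →+ M) (h : Lg F J g s a)
    (hF : ∀ a ∈ F.ge (s + g), I a = 0) (hJ : ∀ a ∈ J.ge 0, I a = 0) : I a = 0 := by
  obtain ⟨b, -, h2, h3⟩ := h
  have := hF _ h3
  rw [map_sub, hJ _ h2] at this
  simpa using this

end

theorem rhs_abs {B M : Type*} [Ring B] [AddCommGroup M] (W : Fil B) (I : B →+ M) {T l θ : ℤ}
    {w : Fin 3 → ℤ} {η x : Fin 3 → B} {G G0 E ψ Θ Θ0 : B}
    (hW : ∀ a ∈ W.ge (T + 1), I a = 0) (e3 : I (η 0 * η 1 * η 2 * Θ * G) = 0)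
    (hη : ∀ i, W.Cg (w i) (η i) (x i)) (hG : W.Cg 0 G G0)
    (hΘ : W.Cg θ Θ Θ0) (hψ : ψ ∈ W.ge l)
    (hE : E - 1 - ψ ∈ W.ge (l + 1)) (hT : T = w 0 + w 1 + w 2 + θ + l) :
    I (η 0 * η 1 * η 2 * Θ * (G * E)) = I (x 0 * x 1 * x 2 * Θ0 * (G0 * ψ)) := by
  have h1 := (((hη 0).mul (hη 1)).mul (hη 2)).mul hΘ
  have h2 := h1.mul (hG.mul (Fil.Cg.refl hψ))
  have e1 := hW _ (W.mono h2.sub (by omega))
  have e2 := hW _ (W.mul' h1.lt (W.mul hG.lt hE) (by omega))
  have : η 0 * η 1 * η 2 * Θ * (G * E) = η 0 * η 1 * η 2 * Θ * G +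
      η 0 * η 1 * η 2 * Θ * (G * (E - 1 - ψ)) + (η 0 * η 1 * η 2 * Θ * (G * ψ) -
        x 0 * x 1 * x 2 * Θ0 * (G0 * ψ)) + x 0 * x 1 * x 2 * Θ0 * (G0 * ψ) := by noncomm_ring
  rw [this, map_add, map_add, map_add, e1, e2, e3]
  simp

variable {p : ℕ} [Fact p.Prime] {s : Type} [Fintype s] [DecidableEq s] {Γ : Type} [AddCommGroup Γ]
  {δ : Γ}

/-- `M` times the main weight plus the second weight -/
def vq (w : Wall p Γ δ s) (M N La : ℕ) (b : Bool) (i : s) : ℤ :=
  if w.kd i = none then M * La + jq w b i else M * fq w N b i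

variable {w : Wall p Γ δ s} {M N La : ℕ} {b : Bool} {al : s} {x : Ix s}

theorem wt_vq (x : Ix s) : wt (2 * (M * La) + 1) (vq w M N La b) (fun i => M * fq w N b i) x =
    M * w.wW N La x + w.jw b x + M * wt 0 (fi w b) (fi w b) x := by
  rw [← wt_jq]
  have : ∀ i, vq w M N La b i = M * (if w.kd i = none then (La : ℤ) else N + w.F i) + jq w b i +
      M * fi w b i := fun i => by
    unfold vq fq jq fi
    by_cases h : w.kd i = none
    · simp [h]
    · simp only [h, and_false, if_false]; ring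
  simp only [Wall.wW, wt, this, fq, mul_add, sum_add_distrib, mul_sum, Pi.zero_apply,
    sum_const_zero, mul_left_comm _ (M : ℤ)]
  ring

theorem ld_w (hal : w.kd al = none) :
    wt (2 * (M * La) + 1) (vq w M N La b) (fun i => M * fq w N b i) (w.ld b al) =
      ∑ i ∈ w.nr b, (((p - 1 : ℕ) : ℤ) * vq w M N La b i + M * fq w N b i) - M * La := by
  rw [wt, sum_ld hal, sum_add_distrib]
  cases b <;> simp [vq, jq, hal, Wall.ld] <;> ring

theorem le_jw (x : Ix s) : x.1 ≤ w.jw b x :=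
  le_add_of_nonneg_right (sum_nonneg fun i _ => by split_ifs <;> omega)

theorem exists_M (w : Wall p Γ δ s) (N : ℕ) (hL : 0 < La) : ∃ C : ℕ, ∀ b al (x : Ix s),
    (∀ i, x.2.1 i < p) → w.wW N La (w.ld b al) ≤ w.wW N La x → -(C : ℤ) ≤ w.jw b x := by
  refine ⟨(2 * La + La * w.kt + ∑ i, w.tv N i).toNat, fun b al x hx h => le_trans ?_ (le_jw x)⟩
  rw [Wall.wW_eq2, Wall.wW_eq2] at h
  have h1 := w.ky_le hx
  have h2 := w.ky_nonneg (w.ld b al)
  have h3 : ∑ i, w.gv N x i ≤ ∑ i, w.tv N i := sum_le_sum fun i _ => w.gv_le N hx i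
  have h4 : 0 ≤ ∑ i, w.gv N (w.ld b al) i := sum_nonneg fun i _ => w.gv_nonneg N _ i
  have h5 : -1 ≤ (w.ld b al).1 := by unfold Wall.ld; split_ifs <;> simp
  have h6 := Int.self_le_toNat (2 * La + La * w.kt + ∑ i, w.tv N i)
  have h7 : (1 : ℤ) ≤ La := by exact_mod_cast hL
  by_cases h0 : 0 ≤ x.1
  · omega
  · nlinarith

theorem lt_w (hG : w.Gh N La b al) (hal : w.kd al = none) (hM : 0 < M)
    (hj : 1 - (M : ℤ) ≤ w.jw b x) (hb : ∀ i, x.2.1 i < p) (hx : w.Lt N La b al x) :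
    wt (2 * (M * La) + 1) (vq w M N La b) (fun i => M * fq w N b i) (w.ld b al) + 1 ≤
      wt (2 * (M * La) + 1) (vq w M N La b) (fun i => M * fq w N b i) x := by
  have h2 := wt_fi_nonneg (w := w) (b := b) x
  have h0 : (0 : ℤ) < M := by exact_mod_cast hM
  rw [wt_vq, wt_vq, ld_j hal, fi_ld hal]
  unfold Wall.Lt at hx
  split_ifs at hx with hb'
  · rcases hx.1.lt_or_eq with h | h
    · nlinarith
    by_cases h3 : w.NoFar b x
    · rcases hG.gen hb' x hb h3 h.symm with ⟨be, h4, h5⟩ | h4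
      · exact absurd h5 (hx.2 be h4)
      · have := le_jw (w := w) (b := b) x
        nlinarith
    · have := wt_fi_pos h3
      nlinarith
  · nlinarith

/-- the pure weight of the Thom form of the near variables -/
def tp (w : Wall p Γ δ s) (N : ℕ) (b : Bool) : ℤ := wt 0 (fq w N b) (fq w N b) (w.h0 b 0)

theorem lt_n (le : ∀ i, w.kd i = none → N + w.F i ≤ La) (hal : w.kd al = none)
    (hb : ∀ i, x.2.1 i < p) (hx : w.wW N La (w.ld b al) ≤ w.wW N La x) :
    tp w N b - La ≤ wt (2 * La) (fun i => fq w N b i + 2 * La * jq w b i) (fq w N b) x := by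
  let d : s → ℤ := fun i => if w.kd i = none then La - (N + w.F i) else 0
  have d0 : ∀ i, 0 ≤ d i := fun i => by
    simp only [d]
    split_ifs with h
    · have := le i h; omega
    · rfl
  have e1 : ∀ y : Ix s, w.wW N La y = 2 * La * y.1 + w.wF N y + ∑ i, y.2.1 i * d i := fun y => by
    have : ∀ i, (if w.kd i = none then (La : ℤ) else N + w.F i) = N + w.F i + d i := fun i => by
      simp only [d]; split_ifs <;> ring
    simp only [Wall.wW, Wall.wF, wt, this, mul_add _ _ (d _), sum_add_distrib]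
    ring
  have e2 : wt (2 * La) (fun i => fq w N b i + 2 * La * jq w b i) (fq w N b) x =
      wt 0 (fq w N b) (fq w N b) x + 2 * La * w.jw b x := by
    rw [← wt_jq]
    simp only [wt, mul_add, sum_add_distrib, mul_sum, Pi.zero_apply, sum_const_zero,
      mul_left_comm _ (2 * (La : ℤ))]
    ring
  have e3 : w.wF N (w.ld b al) = w.wF N (w.h0 b 0) +
      if b = true then -((N : ℤ) + w.F al) else N + w.F al := by
    simp only [Wall.wF, wt]
    rw [sum_ld hal, sum_h0]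
    simp only [Wall.ld, Wall.h0]
    ring
  have h2 := wt_fi_nonneg (w := w) (b := b) x
  rw [e1, e1, e3, sum_ld hal] at hx
  rw [e2, tp, wt_fq, wt_fq, fi_h0]
  have e4 : d al = La - (N + w.F al) := if_pos hal
  cases b
  · have h3 : ∑ i, (x.2.1 i : ℤ) * d i ≤
        2 * La * ∑ i, if false = false ∧ w.kd i = none then (x.2.1 i : ℤ) else 0 := by
      rw [mul_sum]
      refine sum_le_sum fun i _ => ?_
      simp only [d, true_and]
      split_ifs
      · nlinarith [Int.natCast_nonneg (x.2.1 i), Int.natCast_nonneg La, Int.natCast_nonneg N,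
          Int.natCast_nonneg (w.F i)]
      · simp
    have h4 : 0 ≤ ∑ i ∈ w.nr false, ((p - 1 : ℕ) : ℤ) * d i :=
      sum_nonneg fun i _ => mul_nonneg (by omega) (d0 i)
    simp only [Wall.ld, Bool.false_eq_true, if_false, e4] at hx
    rw [Wall.jw, mul_add]
    linarith
  · have h3 : ∑ i, (x.2.1 i : ℤ) * d i ≤ ∑ i ∈ w.nr true, ((p - 1 : ℕ) : ℤ) * d i := by
      rw [← sum_h0 (w := w) (b := true) 0]
      refine sum_le_sum fun i _ => ?_
      by_cases h : w.kd i = none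
      · refine mul_le_mul_of_nonneg_right ?_ (d0 i)
        have := hb i
        simp only [Wall.h0, if_pos (mem_nr.2 (Or.inr ⟨rfl, h⟩) : i ∈ w.nr true)]
        omega
      · simp [d, h]
    have h4 : w.jw true x = x.1 := by simp [Wall.jw]
    simp only [Wall.ld, if_true, e4] at hx
    rw [h4]
    linarith

end N255.Vh
end

-- ▼ part N255/Vh/Geo
section

/-!
# Row 255 (helper76): vertex count with one weight per slot (adapted from helper7's `Vx/*`)
-/

set_option autoImplicit false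
set_option linter.unusedSectionVars false

namespace N255.Vh

open Finset N255.Dr N255.Dr.O N255.Core N255.Vx LaurentPolynomial

variable {p : ℕ} [Fact p.Prime] {Γ : Type} [AddCommGroup Γ] {δ : Γ} {s : Fin 3 → Type}
  [∀ i, Fintype (s i)] [∀ i, DecidableEq (s i)] {w : ∀ i, Wall p Γ δ (s i)} {t : Fin 3 → Bool}
  {V : Type} [Fintype V] [DecidableEq V] {N La : ℕ}

/-- a vertex with an inverse of the naming map -/
structure Su (v : VxD w t N La V) where
  pr : V → (Σ i, s i) × Bool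
  ok : ∀ x, Ok w t (pr x)
  em_pr : ∀ x, v.em (pr x) = x
  pos : ∀ i x, 0 < N + (w i).F x
  le : ∀ i x, (w i).kd x = none → N + (w i).F x ≤ La
  M : ℕ
  two : 2 ≤ M

theorem hi_le {F F' : V → ℕ} (h : ∀ x, F x ≤ F' x) {n : ℕ} {f : O p (ZMod p) V} (hf : Hi F n f) :
    Hi F' n f := fun a ha =>
  (hf a ha).trans_le (sum_le_sum fun x _ => Nat.mul_le_mul_left _ (h x))

namespace Su

variable {v : VxD w t N La V} (U : Su v)

theorem pr_em {q : (Σ i, s i) × Bool} (h : Ok w t q) : U.pr (v.em q) = q :=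
  v.inj (U.ok _) h (U.em_pr _)

theorem M_pos : 0 < U.M := by have := U.two; omega

/-- the exponent weight of the `y` of the `L` slots -/
def jV (x : V) : ℤ := if xi w t (U.pr x) ∧ (U.pr x).2 = false then 1 else 0

/-- the main weight -/
def wV (x : V) : ℤ :=
  if (w (U.pr x).1.1).kd (U.pr x).1.2 = none then U.M * La + U.jV x else U.M * v.FV x

theorem jV_nonneg (x : V) : 0 ≤ U.jV x := by unfold jV; split_ifs <;> simp

theorem FV_le {x : V} (h : (w (U.pr x).1.1).kd (U.pr x).1.2 = none) : v.FV x ≤ La := by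
  have h1 := U.ok x
  have h2 := U.em_pr x
  generalize U.pr x = q at *
  obtain ⟨⟨i, y⟩, _ | _⟩ := q
  · rw [← h2, v.hF i y h1]; exact U.le i y h
  · rw [← h2]; exact (v.hm i y h1).2

theorem fV_le (x : V) : (U.M : ℤ) * v.FV x ≤ U.wV x := by
  have h3 := U.jV_nonneg x
  unfold wV
  split_ifs with h
  · have : (v.FV x : ℤ) ≤ La := by exact_mod_cast U.FV_le h
    nlinarith [Int.natCast_nonneg U.M]
  · exact le_rfl

theorem vw_le (x : V) : (U.M : ℤ) * vw w t La v.em v.FV x ≤ U.wV x := by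
  unfold vw
  split_ifs with h
  · exact U.fV_le x
  · have h3 := U.jV_nonneg x
    rw [wV, if_pos]
    · omega
    rcases ok_cases (U.ok x) with h4 | ⟨h4, h5⟩
    · exact h4.2
    rcases mem_nr.1 h5 with h5 | h5
    · exact absurd ⟨_, _, h5, by rw [← h4]; exact (U.em_pr x).symm⟩ h
    · exact h5.2

theorem ge_w {n : ℕ} {f : O p (ZMod p) V} (h : f ∈ Ge (vw w t La v.em v.FV) n) (a : V → ℕ)
    (ha : cf a f ≠ 0) : (U.M : ℤ) * n ≤ ∑ x, a x * U.wV x := by
  have h1 : (n : ℤ) ≤ _ := Nat.cast_le.2 (h a ha)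
  push_cast at h1
  have h2 := mul_le_mul_of_nonneg_left h1 (Int.natCast_nonneg U.M)
  rw [mul_sum] at h2
  refine h2.trans (sum_le_sum fun x _ => ?_)
  rw [mul_left_comm]
  exact mul_le_mul_of_nonneg_left (U.vw_le x) (by omega)

theorem to_wV {wu r : ℤ} {wd : V → ℤ} {ω : Om p (Au p) V}
    (h : ω ∈ (fil p wu (fun x => (U.M : ℤ) * v.FV x) wd).ge r) :
    ω ∈ (fil p wu U.wV wd).ge r :=
  fil_mono (fun x _ hx => hx.trans (by
    simp only [wt]
    have := sum_le_sum (s := univ) fun i _ =>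
      mul_le_mul_of_nonneg_left (U.fV_le i) (by omega : (0 : ℤ) ≤ x.2.1 i)
    omega)) h

end Su

section

variable (v : VxD w t N La V)

theorem nm_io {i : Fin 3} {x : s i} (h : (w i).kd x ≠ some (!t i)) :
    Nm v.FV (v.io i (z x)) (v.em (⟨i, x⟩, false)) := by
  refine nm_hi ?_
  rw [v.hF i x (ok_ne h)]
  exact hi_le (v.om_le i) (v.near i x h)

theorem far' (i : Fin 3) (x : s i) (h : (w i).kd x = some (!t i)) :
    Hi v.FV (N + (w i).F x) (v.io i (z x)) := hi_le (v.om_le i) (v.far i x h)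

theorem nm_rho (q : Xi w t) : Nm v.FV (v.rho (z q)) (v.em q.1) := nm_hi (v.hrho q)

theorem io_mx (i : Fin 3) (x : s i) : v.io i (z x) ∈ mx := by
  by_cases h : (w i).kd x = some (!t i)
  · exact hi_mx (far' v i x h)
  · exact (nm_io v h).mx

theorem fV_em {i : Fin 3} {x : s i} (h : (w i).kd x ≠ some (!t i)) :
    (v.FV (v.em (⟨i, x⟩, false)) : ℤ) = fq (w i) N (t i) x := by
  rw [v.hF i x (ok_ne h), fq, fi, if_neg h, add_zero, Nat.cast_add]

theorem io_f0 (c : ℕ) (hc : 0 < c) (wu : ℤ) (i : Fin 3) (x : s i) :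
    (Om.fn (bc (Au p) (v.io i (z x))) : Om p (Au p) V) ∈
      (pf v.FV c wu).ge (c * fq (w i) N (t i) x) := by
  by_cases h : (w i).kd x = some (!t i)
  · rw [fq, fi, if_pos h, ← Nat.cast_add]
    exact hi_mem (far' v i x h) c wu _
  · rw [← fV_em v h]
    exact ((nm_io v h).f0 c wu hc).lt

theorem io_f1 (c : ℕ) (hc : 0 < c) (wu : ℤ) (i : Fin 3) (x : s i) :
    (Om.d (Om.fn (bc (Au p) (v.io i (z x)))) : Om p (Au p) V) ∈
      (pf v.FV c wu).ge (c * fq (w i) N (t i) x) :=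
  d_mem (fun _ => le_rfl) (io_f0 v c hc wu i x)

end

namespace Su

variable {v : VxD w t N La V} (U : Su v)

theorem jV_em {i : Fin 3} {x : s i} (h : (w i).kd x ≠ some (!t i)) :
    U.jV (v.em (⟨i, x⟩, false)) = jq (w i) (t i) x := by
  rw [jV, U.pr_em (ok_ne h), jq]
  simp only [xi, and_true]

theorem wV_em {i : Fin 3} {x : s i} (h : (w i).kd x ≠ some (!t i)) :
    U.wV (v.em (⟨i, x⟩, false)) = vq (w i) U.M N La (t i) x := by
  rw [wV, U.jV_em h, fV_em v h, U.pr_em (ok_ne h), vq]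

/-- the main filtration -/
noncomputable abbrev WW : Fil (Om p (Au p) V) :=
  fil p (2 * (U.M * La) + 1) U.wV fun x => (U.M : ℤ) * v.FV x

/-- the second filtration -/
noncomputable abbrev JJ : Fil (Om p (Au p) V) := fil p 1 U.jV 0

theorem cg_w0 {i : Fin 3} {x : s i} (h : (w i).kd x ≠ some (!t i)) :
    U.WW.Cg (vq (w i) U.M N La (t i) x) (Om.fn (bc (Au p) (v.io i (z x))))
      (Om.fn (bc (Au p) (z (v.em (⟨i, x⟩, false)) : O p (ZMod p) V))) := by
  by_cases h' : (w i).kd x = none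
  · refine ⟨by rw [← U.wV_em h, bc_z]; exact z_mem' _, ?_⟩
    rw [← map_sub, ← map_sub]
    refine fn_bc_mem fun a ha => le_trans ?_ (U.ge_w (hi_iff.1 (v.hy i x h')) a ha)
    have h2 : (2 : ℤ) ≤ U.M := by exact_mod_cast U.two
    rw [vq, if_pos h', jq]
    push_cast
    split_ifs <;> linarith
  · have := (nm_io v h).f0 U.M (2 * (U.M * La) + 1) U.M_pos
    rw [vq, if_neg h', ← fV_em v h]
    exact ⟨U.to_wV this.rt, U.to_wV this.sub⟩

theorem io_w0 (i : Fin 3) (x : s i) : (Om.fn (bc (Au p) (v.io i (z x))) :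
    Om p (Au p) V) ∈ U.WW.ge (vq (w i) U.M N La (t i) x) := by
  by_cases h : (w i).kd x = none
  · exact (U.cg_w0 (by rw [h]; simp)).lt
  · rw [vq, if_neg h]
    exact U.to_wV (io_f0 v U.M U.M_pos _ i x)

theorem io_w1 (i : Fin 3) (x : s i) : (Om.d (Om.fn (bc (Au p) (v.io i (z x)))) :
    Om p (Au p) V) ∈ U.WW.ge (U.M * fq (w i) N (t i) x) :=
  U.to_wV (io_f1 v U.M U.M_pos _ i x)

theorem cg_w1 {g : O p (ZMod p) V} {x : V} (h : Nm v.FV g x) :
    U.WW.Cg (U.M * v.FV x) (Om.d (Om.fn (bc (Au p) g)))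
      (Om.d (Om.fn (bc (Au p) (z x : O p (ZMod p) V)))) :=
  ⟨U.to_wV (h.f1 U.M _ U.M_pos).rt, U.to_wV (h.f1 U.M _ U.M_pos).sub⟩

end Su

theorem Su.prod_eq {v : VxD w t N La V} (U : Su v) {M : Type*} [CommMonoid M]
    (g : V → M) : ∏ x, g x = (∏ i, ∏ x ∈ (w i).nr (t i), g (v.em (⟨i, x⟩, false))) *
      ∏ q : Xi w t, g (v.em q.1) := by
  classical
  rw [← prod_filter_mul_prod_filter_not univ (fun x => ¬ xi w t (U.pr x)), prod_sigma']
  congr 1
  · refine (prod_bij (fun q _ => v.em (q, false)) ?_ ?_ ?_ fun _ _ => rfl).symm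
    · rintro ⟨i, x⟩ hq
      have hx := (mem_sigma.1 hq).2
      simp only [mem_filter, mem_univ, true_and]
      rw [U.pr_em (ok_ne (ne_of_nr hx))]
      exact not_xi hx _
    · rintro ⟨i, x⟩ hq ⟨j, y⟩ hq' h
      exact congrArg Prod.fst (v.inj (ok_ne (ne_of_nr (mem_sigma.1 hq).2))
        (ok_ne (ne_of_nr (mem_sigma.1 hq').2)) h)
    · intro x hx
      simp only [mem_filter, mem_univ, true_and] at hx
      obtain ⟨h1, h2⟩ := (ok_cases (U.ok x)).resolve_left hx
      refine ⟨(U.pr x).1, mem_sigma.2 ⟨mem_univ _, h2⟩, ?_⟩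
      rw [← h1]; exact U.em_pr x
  · refine (prod_bij (fun q _ => v.em q.1) ?_ ?_ ?_ fun _ _ => rfl).symm
    · intro q _
      simp only [mem_filter, mem_univ, true_and, not_not]
      rw [U.pr_em (Vx.ok_xi q.2)]
      exact q.2
    · intro q _ q' _ h
      exact Subtype.ext (v.inj (Vx.ok_xi q.2) (Vx.ok_xi q'.2) h)
    · intro x hx
      simp only [mem_filter, mem_univ, true_and, not_not] at hx
      exact ⟨⟨U.pr x, hx⟩, mem_univ _, U.em_pr x⟩

theorem Su.sum_eq {v : VxD w t N La V} (U : Su v) {M : Type*} [AddCommMonoid M]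
    (g : V → M) : ∑ x, g x = (∑ i, ∑ x ∈ (w i).nr (t i), g (v.em (⟨i, x⟩, false))) +
      ∑ q : Xi w t, g (v.em q.1) :=
  U.prod_eq (M := Multiplicative M) g

variable {v : VxD w t N La V}

theorem PB_io_f (v : VxD w t N La V) (i : Fin 3) {r : ℤ} {ω : Om p (Au p) (s i)}
    (h : ω ∈ (fil p 0 (fq (w i) N (t i)) (fq (w i) N (t i))).ge r) :
    PB (v.io i) ω ∈ (pf v.FV 1 0).ge r :=
  PB_mem _ (fun x => Fil.mono _ (io_f0 v 1 one_pos 0 i x) (by simp))
    (fun x => Fil.mono _ (io_f1 v 1 one_pos 0 i x) (by simp)) h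

theorem Su.lx_h (U : Su v) (i : Fin 3) {h : Om p (Au p) (s i)} (hh : In ((w i).Hm N (t i)) h) :
    Lx (pf v.FV 1 0) (fil p 2 0 0) (wt 0 (fq (w i) N (t i)) (fq (w i) N (t i)) ((w i).h0 (t i) 0)) 0
      (PB (v.io i) h) := by
  refine Sb_ind (P := (w i).Hm N (t i)) (Q := fun h => Lx _ _ _ _ (PB (v.io i) h))
    (by rw [map_zero]; exact Lx.zero) (fun a b ha hb => by rw [map_add]; exact ha.add hb)
    (fun c x hx hb => ?_) hh
  rcases hm_lt (U.pos i) hb hx with ⟨h1, h2⟩ | h1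
  · refine ⟨_, PB_io_f v i (fil_smul (mu_mem ?_) c), PB_u _ (fil_smul (mu_mem ?_) c),
      by rw [sub_self]; exact zero_mem _⟩
    · rw [h1, h0_w, h0_w]
    · simp only [wt, Pi.zero_apply, mul_zero, sum_const_zero]; omega
  · exact ⟨0, zero_mem _, zero_mem _, by
      rw [sub_zero]; exact PB_io_f v i (fil_smul (mu_mem h1) c)⟩

theorem Su.lhs (U : Su v) {a h : ∀ i, Om p (Au p) (s i)} (c : ∀ i, Ch (a i) (h i))
    (hh : ∀ i, In ((w i).Hm N (t i)) (h i)) :
    cu (Jx w t, Om.top p V, univ) (PB (v.io 0) (a 0) * PB (v.io 1) (a 1) * PB (v.io 2) (a 2) *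
      PB v.rho (O.E ((-T (-1) : Au p) • bc (Au p) v.Q) • Om.e univ)) = 0 := by
  classical
  obtain ⟨g, be, hg, he⟩ := top_form v.Q v.hQ
  have c4 : Ch (O.E ((-T (-1) : Au p) • bc (Au p) v.Q) • Om.e univ)
      (g • Om.mon (Om.top p (Xi w t)) univ) :=
    ⟨by rw [map_smul, d_top, smul_zero], be, by rw [he, add_comm]⟩
  have := (((((c 0).pb (v.io 0)).mul ((c 1).pb (v.io 1))).mul ((c 2).pb (v.io 2))).mul
    (c4.pb v.rho)).int
  rw [cu_int, this, ← cu_int]
  have l4 : Lx (pf v.FV 1 0) (fil p 2 0 0)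
      (∑ q : Xi w t, (((p - 1 : ℕ) : ℤ) * v.FV (v.em q.1) + v.FV (v.em q.1)))
      (-(((p - 1 : ℕ) : ℤ) * (Fintype.card (Xi w t) : ℤ)))
      (PB v.rho (g • Om.mon (Om.top p (Xi w t)) univ)) := by
    refine ⟨_, PB_mem (wu := 0) _ (vz := fun q => v.FV (v.em q.1)) (vd := fun q => v.FV (v.em q.1))
      (fun q => Fil.mono _ ((nm_rho v q).f0 1 0 one_pos).lt (by simp))
      (fun q => Fil.mono _ ((nm_rho v q).f1 1 0 one_pos).lt (by simp))
      (smul_mon_mem fun j _ => ?_),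
      PB_u _ (smul_mon_mem fun j hj => ?_), by rw [sub_self]; exact zero_mem _⟩
    · simp [wt, Om.top, sum_add_distrib]
    · simpa [wt] using hg j hj
  refine ((((U.lx_h 0 (hh 0)).mul (U.lx_h 1 (hh 1))).mul (U.lx_h 2 (hh 2))).mul l4).eq_zero
    (cu (Jx w t, Om.top p V, univ)) (fun a ha => cu_eq_zero ?_ ha) fun a ha => cu_eq_zero ?_ ha
  · have e := U.sum_eq fun x => ((p - 1 : ℕ) : ℤ) * v.FV x + v.FV x
    have e' : ∀ i, ∑ x ∈ (w i).nr (t i), (((p - 1 : ℕ) : ℤ) * v.FV (v.em (⟨i, x⟩, false)) +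
        v.FV (v.em (⟨i, x⟩, false))) =
        wt 0 (fq (w i) N (t i)) (fq (w i) N (t i)) ((w i).h0 (t i) 0) := fun i => by
      rw [h0_w]
      exact sum_congr rfl fun x hx => by rw [fV_em v (ne_of_nr hx)]
    simp only [e', Fin.sum_univ_three] at e
    rw [← e]
    simp [wt, Om.top, sum_add_distrib]
  · rw [card_xi]
    simp only [wt, Jx, Pi.zero_apply, mul_zero, sum_const_zero]
    push_cast
    linarith

/-- the exponents of the product of the leading monomials -/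
def Su.a0 (U : Su v) (al : ∀ i, s i) (x : V) : ℕ :=
  if (U.pr x).2 = false then
    ((w (U.pr x).1.1).ld (t (U.pr x).1.1) (al (U.pr x).1.1)).2.1 (U.pr x).1.2 else 0

theorem Su.prod_lead (U : Su v) {al : ∀ i, s i} (hal : ∀ i, (w i).kd (al i) = none) :
    ∏ i, ∏ x, (z (v.em (⟨i, x⟩, false)) : O p (Au p) V) ^ ((w i).ld (t i) (al i)).2.1 x =
      zm (U.a0 al) := by
  classical
  rw [prod_sigma', zm, ← prod_filter_of_ne (p := fun q : Σ i, s i => Ok w t (q, false))
    fun q _ h => ok_ne (ld_ne (hal q.1) fun h0 => h (by rw [h0, pow_zero]))]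
  refine prod_of_injOn (fun q => v.em (q, false)) (fun q hq q' hq' h => ?_) (fun _ _ => by simp)
    (fun x _ hx => ?_) fun q hq => ?_
  · exact congrArg Prod.fst (v.inj (mem_filter.1 hq).2 (mem_filter.1 hq').2 h)
  · rw [Su.a0, if_neg, pow_zero]
    intro h
    refine hx ⟨(U.pr x).1, ?_, ?_⟩
    · simp only [coe_filter, Set.mem_ofPred_eq, mem_sigma, mem_univ, true_and]
      rw [← h]; exact U.ok x
    · simp only; rw [← h]; exact U.em_pr x
  · rw [Su.a0, U.pr_em (mem_filter.1 hq).2, if_pos rfl]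

theorem Su.sq_lead (U : Su v) :
    Sq univ (PB (p := p) (rn fun x => v.em (⟨0, x⟩, false)) (Om.e ((w 0).nr (t 0))) *
      PB (rn fun x => v.em (⟨1, x⟩, false)) (Om.e ((w 1).nr (t 1))) *
      PB (rn fun x => v.em (⟨2, x⟩, false)) (Om.e ((w 2).nr (t 2))) *
      PB (rn fun q : Xi w t => v.em q.1) (Om.e univ)) := by
  classical
  have h1 : ∀ i, Sq (((w i).nr (t i)).image fun x => v.em (⟨i, x⟩, false))
      (PB (p := p) (rn fun x => v.em (⟨i, x⟩, false)) (Om.e ((w i).nr (t i)))) := fun i =>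
    sq_rn _ fun x hx y hy h => by
      simpa using v.inj (ok_ne (ne_of_nr hx)) (ok_ne (ne_of_nr hy)) h
  have h2 := sq_rn (p := p) (fun q : Xi w t => v.em q.1) (S := univ) fun q _ q' _ h =>
    Subtype.ext (v.inj (Vx.ok_xi q.2) (Vx.ok_xi q'.2) h)
  have m1 : ∀ i x, x ∈ (((w i).nr (t i)).image fun x => v.em (⟨i, x⟩, false)) ↔
      (U.pr x).1.1 = i ∧ ¬ xi w t (U.pr x) := fun i x => by
    rw [mem_image]
    constructor
    · rintro ⟨y, hy, rfl⟩
      rw [U.pr_em (ok_ne (ne_of_nr hy))]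
      exact ⟨rfl, not_xi hy _⟩
    · rintro ⟨rfl, h⟩
      obtain ⟨h3, h4⟩ := (ok_cases (U.ok x)).resolve_left h
      refine ⟨_, h4, ?_⟩
      rw [← h3]; exact U.em_pr x
  have m2 : ∀ x, x ∈ (univ.image fun q : Xi w t => v.em q.1) ↔ xi w t (U.pr x) := fun x => by
    rw [mem_image]
    constructor
    · rintro ⟨q, -, rfl⟩
      rw [U.pr_em (Vx.ok_xi q.2)]
      exact q.2
    · exact fun h => ⟨⟨_, h⟩, mem_univ _, U.em_pr x⟩
  have := (((h1 0).mul (h1 1) ?_).mul (h1 2) ?_).mul h2 ?_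
  · convert this using 1
    ext x
    simp only [mem_union, m1, m2, mem_univ, true_iff]
    generalize (U.pr x).1.1 = i
    fin_cases i <;> simp [em']
  all_goals
    rw [disjoint_left]
    intro x
    simp only [mem_union, m1, m2]
    generalize (U.pr x).1.1 = i
    fin_cases i <;> simp

end N255.Vh
end

-- ▼ part N255/Vh/Main
section

/-!
# Row 255 (helper76): the vertex theorem `VertexH` and `CoreH`
-/

set_option autoImplicit false
set_option linter.unusedSectionVars false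

namespace N255.Vh

open Finset N255.Dr N255.Dr.O N255.Core N255.Vx LaurentPolynomial

variable {p : ℕ} [Fact p.Prime] {Γ : Type} [AddCommGroup Γ] {δ : Γ} {s : Fin 3 → Type}
  [∀ i, Fintype (s i)] [∀ i, DecidableEq (s i)] {w : ∀ i, Wall p Γ δ (s i)} {t : Fin 3 → Bool}
  {V : Type} [Fintype V] [DecidableEq V] {N La : ℕ} {v : VxD w t N La V}

/-- the Gaussian term of a pair -/
noncomputable def ga (v : VxD w t N La V) (b : Bi w t) : O p (ZMod p) V :=
  v.c b.1.1 b.1.2 • (z (v.em (b.1, false)) * z (v.em (b.1, true)))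

theorem ga_mem (b : Bi w t) : ga v b ∈ (mx : Ideal (O p (ZMod p) V)) ^ 2 := by
  rw [ga, Algebra.smul_def, pow_two]
  exact Ideal.mul_mem_left _ _ (Ideal.mul_mem_mul (z_mem _) (z_mem _))

theorem E_ga (b : Bi w t) : O.E (xu (ga v b)) = tx p (xu (ga v b)) := by
  have : xu (ga v b) = ((-T (-1) : Au p) • bc (Au p) (v.c b.1.1 b.1.2 •
      (z (v.em (b.1, false)) : O p (ZMod p) V))) * z (v.em (b.1, true)) := by
    rw [xu, ga, ← smul_mul_assoc, map_mul, bc_z, smul_mul_assoc]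
  rw [this]
  refine E_mul ?_ (z_mem _)
  rw [Algebra.smul_def]
  refine Ideal.mul_mem_left _ _ (bc_mem _ ?_)
  rw [Algebra.smul_def]
  exact Ideal.mul_mem_left _ _ (z_mem _)

/-- the Gaussian factor -/
noncomputable def GG (v : VxD w t N La V) : O p (Au p) V := ∏ b, tx p (xu (ga v b))

theorem GG_mem {wu : ℤ} {wz wd : V → ℤ}
    (h : ∀ b : Bi w t, wu ≤ wz (v.em (b.1, false)) + wz (v.em (b.1, true))) :
    (Om.fn (GG v) : Om p (Au p) V) ∈ (fil p wu wz wd).ge 0 := by
  have := Fil.prod (F := (fil p wu wz wd).comap (algebraMap (O p (Au p) V) (Om p (Au p) V)))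
    univ (t := fun _ => 0) (a := fun b : Bi w t => tx p (xu (ga v b))) fun b _ =>
      Fil.tx_mem p (by
        rw [Fil.mem_comap]
        refine Fil.mono _ (xu_fil (r := wu) ?_) (by omega)
        rw [ga, fn_bc_smul, map_mul, bc_z, bc_z, Om.fn, map_mul]
        exact fil_smul (Fil.mul' _ (z_mem' _) (z_mem' _) (h b)) _)
  rw [sum_const_zero] at this
  exact this

/-- the signed potential -/
noncomputable def sW (v : VxD w t N La V) (i : Fin 3) : O p (ZMod p) V :=
  if t i = true then v.io i (w i).W else -v.io i (w i).W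

theorem sW_mem (i : Fin 3) : sW v i ∈ (mx : Ideal (O p (ZMod p) V)) ^ 2 := by
  have := map_mx_pow (v.io i) (io_mx v i) (w i).W2
  unfold sW
  split_ifs
  exacts [this, neg_mem this]

theorem up_Eu (i : Fin 3) : up (v.io i) ((w i).Eu (t i)) = O.E (xu (sW v i)) := by
  unfold Wall.Eu sW
  split_ifs
  · exact up_E _ (io_mx v i) (w i).W2
  · rw [← map_neg, ← up_E _ (io_mx v i) (neg_mem (w i).W2), xu, map_neg, neg_smul_neg]

theorem E_all : O.E (xu (sW v 0)) * O.E (xu (sW v 1)) * O.E (xu (sW v 2)) *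
    (GG v * O.E (xu v.De) * O.E (xu v.Ps)) = up v.rho (O.E (xu v.Q)) := by
  have h1 : ∑ b, ga v b = ∑ i, ∑ x, (if t i = false ∧ (w i).kd x = none then
      v.c i x • (z (v.em (⟨i, x⟩, false)) * z (v.em (⟨i, x⟩, true))) else 0) :=
    sum_bi (w := w) (t := t) fun q => v.c q.1 q.2 • (z (v.em (q, false)) * z (v.em (q, true)))
  have h2 : ∑ i, sW v i + ∑ b, ga v b + v.De + v.Ps = v.rho v.Q := by rw [h1]; exact v.eq
  have h3 : GG v = O.E (xu (∑ b, ga v b)) := by
    rw [xu_sum, E_sum _ _ fun b _ => xu_mem (ga_mem b), GG]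
    exact prod_congr rfl fun b _ => (E_ga b).symm
  have m1 : ∑ i, sW v i ∈ (mx : Ideal (O p (ZMod p) V)) ^ 2 := sum_mem fun i _ => sW_mem i
  have m2 : ∑ b, ga v b ∈ (mx : Ideal (O p (ZMod p) V)) ^ 2 := sum_mem fun b _ => ga_mem b
  rw [up_E _ (fun q => (nm_rho v q).mx) v.hQ, ← h2, xu_add, xu_add, xu_add,
    E_add (add_mem (add_mem (xu_mem m1) (xu_mem m2)) (xu_mem v.De2)) (xu_mem v.Ps2),
    E_add (add_mem (xu_mem m1) (xu_mem m2)) (xu_mem v.De2), E_add (xu_mem m1) (xu_mem m2), ← h3,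
    xu_sum, E_sum _ _ fun i _ => xu_mem (sW_mem i), Fin.prod_univ_three]
  ring

theorem E_De {wu l : ℤ} (hl : 0 ≤ l) {wz wd : V → ℤ}
    (h : ∀ a : V → ℕ, cf a v.De ≠ 0 → l + wu ≤ ∑ i, a i * wz i) :
    (Om.fn (O.E (xu v.De)) - 1 : Om p (Au p) V) ∈ (fil p wu wz wd).ge l := by
  have := add_mem (Fil.mono _ (E_xu_sub (wd := wd) hl v.De2 h) (by omega : l ≤ 2 * l))
    (Fil.mono _ (xu_fil (wu := wu) (wd := wd) (fn_bc_mem h)) (by omega : l ≤ l + wu - wu))
  rwa [sub_add_cancel] at this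

theorem E_De' {wu : ℤ} {wz wd : V → ℤ}
    (h : ∀ a : V → ℕ, cf a v.De ≠ 0 → wu ≤ ∑ i, a i * wz i) :
    (Om.fn (O.E (xu v.De)) : Om p (Au p) V) ∈ (fil p wu wz wd).ge 0 := by
  have := add_mem (E_De (v := v) (wd := wd) le_rfl fun a ha => (zero_add wu).trans_le (h a ha))
    (Fil.one _)
  rwa [sub_add_cancel] at this

namespace Su

variable (U : Su v) {al : ∀ i, s i}

theorem eta_w {i : Fin 3} {al : s i} (hal : (w i).kd al = none) (hG : (w i).Gh N La (t i) al)
    (hM : ∀ x : Ix (s i), (∀ y, x.2.1 y < p) →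
      (w i).wW N La ((w i).ld (t i) al) ≤ (w i).wW N La x → 1 - (U.M : ℤ) ≤ (w i).jw (t i) x)
    {η : Om p (Au p) (s i)} (h : In ((w i).Lt N La (t i) al) (η - mu ((w i).ld (t i) al))) :
    U.WW.Cg (wt (2 * (U.M * La) + 1) (vq (w i) U.M N La (t i)) (fun x => U.M * fq (w i) N (t i) x)
      ((w i).ld (t i) al)) (PB (v.io i) η)
      (PB (rn fun x => v.em (⟨i, x⟩, false)) (mu ((w i).ld (t i) al))) := by
  have h1 := cg_mu (wu := 2 * (U.M * La) + 1) (wz := U.wV) (wd := fun x => (U.M : ℤ) * v.FV x)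
    (v.io i) (rn fun x => v.em (⟨i, x⟩, false)) (vz := vq (w i) U.M N La (t i))
    (vd := fun x => U.M * fq (w i) N (t i) x) ((w i).ld (t i) al)
    (fun x hx => by rw [rn_z]; exact U.cg_w0 (ld_ne hal hx))
    fun x hx => by
      rw [rn_z, ← fV_em v (ne_of_nr hx)]; exact U.cg_w1 (nm_io v (ne_of_nr hx))
  refine Fil.Cg.trans ⟨h1.lt, ?_⟩ h1
  rw [← map_sub]
  exact PB_mem _ (U.io_w0 i) (U.io_w1 i) (Sb_mono (fun x hb hx =>
    lt_w hG hal U.M_pos (hM x hb ((w i).le_of_lt N La hx)) hb hx) h)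

theorem th_w : U.WW.Cg (∑ q : Xi w t, U.M * (v.FV (v.em q.1) : ℤ)) (PB v.rho (Om.e univ))
    (PB (rn fun q : Xi w t => v.em q.1) (Om.e univ)) :=
  cg_e (F := U.WW) (PB v.rho).toRingHom (PB (rn fun q : Xi w t => v.em q.1)).toRingHom univ
    fun q _ => by simpa [PB_dz] using U.cg_w1 (nm_rho v q)

theorem th_j : PB v.rho (Om.e univ) ∈ U.JJ.ge 0 := by
  have := (cg_e (F := U.JJ) (PB v.rho).toRingHom (PB v.rho).toRingHom (wd := fun _ => 0) univ
    fun q _ => Fil.Cg.refl (by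
      simpa [PB_dz] using d_bc_mem0 (wu := 1) U.jV_nonneg (v.rho (z q)))).lt
  simpa using this

theorem jV_y (b : Bi w t) : U.jV (v.em (b.1, false)) = 1 := by
  rw [jV, U.pr_em (Vx.ok_xi (q := (b.1, false)) b.2), if_pos ⟨b.2, rfl⟩]

theorem jV_m (b : Bi w t) : U.jV (v.em (b.1, true)) = 0 := by
  rw [jV, U.pr_em (Vx.ok_xi (q := (b.1, true)) b.2), if_neg (by simp)]

theorem wV_y (b : Bi w t) : U.wV (v.em (b.1, false)) = U.M * La + 1 := by
  rw [wV, U.jV_y, U.pr_em (Vx.ok_xi (q := (b.1, false)) b.2), if_pos b.2.2]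

theorem wV_m (b : Bi w t) : U.wV (v.em (b.1, true)) = U.M * La := by
  rw [wV, U.jV_m, U.pr_em (Vx.ok_xi (q := (b.1, true)) b.2), if_pos b.2.2, add_zero]

theorem tgt_w (hal : ∀ i, (w i).kd (al i) = none) :
    wt (2 * (U.M * La) + 1) U.wV (fun x => (U.M : ℤ) * v.FV x)
        (Jx (p := p) w t, Om.top p V, univ) =
      ∑ i, wt (2 * (U.M * La) + 1) (vq (w i) U.M N La (t i)) (fun x => U.M * fq (w i) N (t i) x)
        ((w i).ld (t i) (al i)) + ∑ q : Xi w t, U.M * (v.FV (v.em q.1) : ℤ) + (U.M * La - 1) := by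
  have e := U.sum_eq fun x => ((p - 1 : ℕ) : ℤ) * U.wV x + U.M * v.FV x
  have e1 : ∀ i, ∑ x ∈ (w i).nr (t i), (((p - 1 : ℕ) : ℤ) * U.wV (v.em (⟨i, x⟩, false)) +
      U.M * v.FV (v.em (⟨i, x⟩, false))) = wt (2 * (U.M * La) + 1) (vq (w i) U.M N La (t i))
        (fun x => U.M * fq (w i) N (t i) x) ((w i).ld (t i) (al i)) + U.M * La := fun i => by
    rw [ld_w (hal i), sub_add_cancel]
    exact sum_congr rfl fun x hx => by rw [fV_em v (ne_of_nr hx), U.wV_em (ne_of_nr hx)]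
  have e2 : ∑ q : Xi w t, U.wV (v.em q.1) = Fintype.card (Bi w t) * (2 * (U.M * La) + 1) := by
    rw [sum_xi, sum_congr rfl fun b _ => (by
      change U.wV (v.em (b.1, false)) + U.wV (v.em (b.1, true)) = 2 * (U.M * La) + 1
      rw [U.wV_y, U.wV_m]; ring), sum_const, card_univ, nsmul_eq_mul]
  simp only [e1, sum_add_distrib, ← mul_sum, e2, sum_const, card_univ, Fintype.card_fin] at e
  simp only [wt, Om.top, Jx, ← mul_sum] at e ⊢
  push_cast at e ⊢
  linear_combination e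

theorem tgt_j : wt 1 U.jV 0 (Jx (p := p) w t, Om.top p V, univ) < 0 := by
  have e := U.sum_eq U.jV
  have e1 : ∀ i, ∑ x ∈ (w i).nr (t i), U.jV (v.em (⟨i, x⟩, false)) = 0 := fun i =>
    sum_eq_zero fun x hx => by rw [U.jV_em (ne_of_nr hx), jq_nr hx]
  have e2 : ∑ q : Xi w t, U.jV (v.em q.1) = Fintype.card (Bi w t) := by
    rw [sum_xi, sum_congr rfl fun b _ => (by
      change U.jV (v.em (b.1, false)) + U.jV (v.em (b.1, true)) = 1
      rw [U.jV_y, U.jV_m]; ring), sum_const, card_univ, nsmul_eq_mul, mul_one]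
  simp only [e1, e2, sum_const_zero, zero_add] at e
  simp only [wt, Om.top, Jx, ← mul_sum, e, Pi.zero_apply, sum_const_zero]
  linarith

theorem a0_em {i : Fin 3} {x : s i} (h : (w i).kd x ≠ some (!t i)) :
    U.a0 al (v.em (⟨i, x⟩, false)) = ((w i).ld (t i) (al i)).2.1 x := by
  rw [a0, U.pr_em (ok_ne h), if_pos rfl]

theorem a0_m (b : Bi w t) : U.a0 al (v.em (b.1, true)) = 0 := by
  rw [a0, U.pr_em (Vx.ok_xi (q := (b.1, true)) b.2), if_neg (by simp)]

theorem a0_le (x : V) : U.a0 al x ≤ p - 1 := by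
  have hp := (Fact.out : p.Prime).two_le
  simp only [a0, Wall.ld]
  split_ifs <;> omega

/-! ### the count with the weights of the slots -/

/-- the own `y` of an `L` slot -/
noncomputable def yo (v : VxD w t N La V) (i : Fin 3) (x : V) : ℤ :=
  if t i = false then yi w v.em i x else 0

theorem yo_nonneg (i : Fin 3) (x : V) : 0 ≤ yo v i x := by unfold yo; split_ifs <;> simp

theorem yo_le (i : Fin 3) (x : V) : yo v i x ≤ U.jV x := by
  have := U.jV_nonneg x
  unfold yo yi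
  split_ifs with h1 h2
  · obtain ⟨y, hy, rfl⟩ := h2
    exact (U.jV_y ⟨⟨i, y⟩, h1, hy⟩).ge
  · simpa using this
  · exact this

/-- the filtration of slot `i` -/
noncomputable abbrev CC (v : VxD w t N La V) (i : Fin 3) : Fil (Om p (Au p) V) :=
  fil p (2 * La) (fun x => v.om i x + 2 * La * yo v i x) fun x => v.om i x

/-- pure weight plus second weight -/
noncomputable abbrev NN : Fil (Om p (Au p) V) :=
  fil p (2 * La) (fun x => v.FV x + 2 * La * U.jV x) fun x => v.FV x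

theorem io_o (i : Fin 3) (x : s i) : v.io i (z x) ∈ Ge (v.om i) (fq (w i) N (t i) x).toNat := by
  by_cases h : (w i).kd x = some (!t i)
  · rw [fq, fi, if_pos h]
    exact Ge_anti (by omega) (hi_iff.1 (v.far i x h))
  · rw [fq, fi, if_neg h, ← sub_add_cancel (v.io i (z x)) (z (v.em (⟨i, x⟩, false)))]
    refine add_mem (Ge_anti (by omega) (hi_iff.1 (v.near i x h))) (Ge_anti ?_ (z_mem_Ge _))
    rw [v.om_em i x (ok_ne h)]
    omega

theorem io_o' (i : Fin 3) (x : s i) (a : V → ℕ) (ha : cf a (v.io i (z x)) ≠ 0) :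
    fq (w i) N (t i) x ≤ ∑ y, (a y : ℤ) * v.om i y := by
  have h1 : (((fq (w i) N (t i) x).toNat : ℕ) : ℤ) ≤ _ := Nat.cast_le.2 (io_o i x a ha)
  push_cast at h1
  exact (Int.self_le_toNat _).trans h1

theorem io_c0 (i : Fin 3) (x : s i) : (Om.fn (bc (Au p) (v.io i (z x))) : Om p (Au p) V) ∈
    (CC v i).ge (fq (w i) N (t i) x + 2 * La * jq (w i) (t i) x) := by
  refine fn_bc_mem fun a ha => ?_
  have h1 := io_o' i x a ha
  have h2 : jq (w i) (t i) x ≤ ∑ y, (a y : ℤ) * yo v i y := by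
    unfold jq
    split_ifs with h
    · have h3 : v.io i (z x) ∈ Ge (yi w v.em i) 1 := by
        rw [← sub_add_cancel (v.io i (z x)) (z (v.em (⟨i, x⟩, false)))]
        refine add_mem (v.hyL i x h.1 h.2) (Ge_anti ?_ (z_mem_Ge _))
        rw [yi, if_pos ⟨x, h.2, rfl⟩]
      simp only [yo, if_pos h.1]
      exact_mod_cast h3 a ha
    · exact sum_nonneg fun y _ => mul_nonneg (by omega) (yo_nonneg i y)
  simp only [mul_add, sum_add_distrib, mul_left_comm _ (2 * (La : ℤ)), ← mul_sum]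
  nlinarith [Int.natCast_nonneg La]

theorem io_c1 (i : Fin 3) (x : s i) : (Om.d (Om.fn (bc (Au p) (v.io i (z x)))) : Om p (Au p) V) ∈
    (CC v i).ge (fq (w i) N (t i) x) :=
  fil_mono (wu := 2 * La) (wz := fun x => v.om i x) (wd := fun x => v.om i x)
    (fun y _ hy => hy.trans (by
      have := sum_nonneg (s := univ) fun x _ => mul_nonneg (by omega : (0 : ℤ) ≤ y.2.1 x)
        (mul_nonneg (by omega : (0 : ℤ) ≤ 2 * La) (yo_nonneg (v := v) i x))
      simp only [wt, mul_add, sum_add_distrib]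
      omega)) (d_mem (fun _ => le_rfl) (fn_bc_mem (io_o' i x)))

include U in
theorem eta_c {i : Fin 3} {al : s i} (hal : (w i).kd al = none)
    {η : Om p (Au p) (s i)} (h : In ((w i).Lt N La (t i) al) (η - mu ((w i).ld (t i) al))) :
    PB (v.io i) η ∈ (CC v i).ge (tp (w i) N (t i) - La) := by
  have hp := (Fact.out : p.Prime).two_le
  refine PB_mem _ (io_c0 i) (io_c1 i) ?_
  rw [← sub_add_cancel η (mu ((w i).ld (t i) al))]
  refine add_mem (Sb_mono (fun x hb hx => lt_n (U.le i) hal hb ((w i).le_of_lt N La hx)) h)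
    (mu_mem (lt_n (U.le i) hal (fun y => ?_) le_rfl))
  simp only [Wall.ld]
  split_ifs <;> omega

theorem tp_eq (i : Fin 3) :
    tp (w i) N (t i) = ∑ x ∈ (w i).nr (t i), (p : ℤ) * v.FV (v.em (⟨i, x⟩, false)) := by
  have hp := (Fact.out : p.Prime).one_le
  rw [tp, h0_w]
  refine sum_congr rfl fun x hx => ?_
  rw [fV_em v (ne_of_nr hx), Nat.cast_sub hp]
  push_cast
  ring

include U in
theorem cross (i : Fin 3) (c : V → ℤ) (h0 : ∀ x, 0 ≤ c x) (h1 : ∀ x, c x ≤ p) :
    3 * ∑ x, c x * v.om i x ≤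
      ∑ x, c x * v.FV x + 2 * tp (w i) N (t i) + 2 * (p * ∑ x ∈ v.Bad, v.FV x : ℕ) := by
  classical
  let g : V → ℤ := fun x => if (U.pr x).1.1 = i ∧ ¬ xi w t (U.pr x) then p * v.FV x else 0
  have e1 : ∑ x, g x = tp (w i) N (t i) := by
    rw [U.sum_eq g, tp_eq (v := v) i, sum_eq_zero (s := univ) (f := fun q : Xi w t => g (v.em q.1)),
      add_zero, sum_eq_single i]
    · refine sum_congr rfl fun x hx => ?_
      simp only [g, U.pr_em (ok_ne (ne_of_nr hx))]
      exact if_pos ⟨trivial, not_xi hx _⟩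
    · refine fun j _ hj => sum_eq_zero fun x hx => ?_
      simp only [g, U.pr_em (ok_ne (ne_of_nr hx))]
      exact if_neg fun h => hj h.1
    · simp
    · intro q _
      simp only [g, U.pr_em (Vx.ok_xi q.2)]
      exact if_neg fun h => h.2 q.2
  have e2 : ((p * ∑ x ∈ v.Bad, v.FV x : ℕ) : ℤ) =
      ∑ x, if x ∈ v.Bad then (p : ℤ) * v.FV x else 0 := by
    rw [sum_ite_mem, univ_inter, ← mul_sum]
    push_cast
    rfl
  rw [← e1, e2, mul_sum, mul_sum, mul_sum, ← sum_add_distrib, ← sum_add_distrib]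
  refine sum_le_sum fun x _ => ?_
  have a0 := h0 x
  have a1 := h1 x
  have a2 : (v.om i x : ℤ) ≤ v.FV x := by exact_mod_cast v.om_le i x
  have a3 := Int.natCast_nonneg (v.FV x)
  have a4 : c x * v.om i x ≤ c x * v.FV x := mul_le_mul_of_nonneg_left a2 a0
  have a5 : c x * v.FV x ≤ p * v.FV x := mul_le_mul_of_nonneg_right a1 a3
  have a6 : 0 ≤ c x * v.FV x := mul_nonneg a0 a3
  simp only [g]
  split_ifs with b1 b2 b3
  · linarith
  · linarith
  · linarith
  · have b4 : ¬ xi w t (U.pr x) := fun h => b3 (U.em_pr x ▸ v.bad ⟨_, h⟩)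
    have b5 := v.cheap i _ (U.ok x) (fun h => b1 ⟨h, b4⟩) (by rwa [U.em_pr])
    rw [U.em_pr] at b5
    have b6 : 3 * (v.om i x : ℤ) ≤ v.FV x := by exact_mod_cast b5
    nlinarith

theorem split {i : Fin 3} {ω : Om p (Au p) V} (h : ω ∈ (CC v i).ge (tp (w i) N (t i) - La)) :
    Lg U.NN U.JJ (2 * La - 2 * (p * ∑ x ∈ v.Bad, v.FV x : ℕ)) (tp (w i) N (t i) - La) ω := by
  classical
  refine Sb_ind (Q := fun a => Lg _ _ _ _ a) (Lg.of' (zero_mem _)) (fun _ _ => Lg.add)
    (fun c x hx hb => ?_) h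
  have e : ∀ f : V → ℤ, ∑ y, (x.2.1 y + if y ∈ x.2.2 then 1 else 0 : ℤ) * f y =
      ∑ y, x.2.1 y * f y + ∑ y ∈ x.2.2, f y := fun f => by
    simp only [add_mul, sum_add_distrib, ite_mul, one_mul, zero_mul, sum_ite_mem, univ_inter]
  have h1 := U.cross i (fun y => x.2.1 y + if y ∈ x.2.2 then 1 else 0)
    (fun y => by split_ifs <;> omega) fun y => by have := hb y; split_ifs <;> omega
  rw [e, e] at h1
  have h2 : ∑ y, (x.2.1 y : ℤ) * v.om i y ≤ ∑ y, (x.2.1 y : ℤ) * v.FV y :=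
    sum_le_sum fun y _ => mul_le_mul_of_nonneg_left (by exact_mod_cast v.om_le i y) (by omega)
  have h3 : ∑ y ∈ x.2.2, (v.om i y : ℤ) ≤ ∑ y ∈ x.2.2, (v.FV y : ℤ) :=
    sum_le_sum fun y _ => by exact_mod_cast v.om_le i y
  have h4 : ∑ y, (x.2.1 y : ℤ) * yo v i y ≤ ∑ y, (x.2.1 y : ℤ) * U.jV y :=
    sum_le_sum fun y _ => mul_le_mul_of_nonneg_left (U.yo_le i y) (by omega)
  have h5 := mul_le_mul_of_nonneg_left h4 (by omega : (0 : ℤ) ≤ 2 * La)
  simp only [wt, mul_add, sum_add_distrib, mul_left_comm _ (2 * (La : ℤ)), ← mul_sum] at hx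
  by_cases hJ : 0 ≤ x.1 + ∑ y, (x.2.1 y : ℤ) * yo v i y
  · refine Lg.of (fil_smul (mu_mem ?_) c) (fil_smul (mu_mem ?_) c)
    · simp only [wt, mul_add, sum_add_distrib, mul_left_comm _ (2 * (La : ℤ)), ← mul_sum]
      linarith
    · simp only [wt, Pi.zero_apply, sum_const_zero]
      linarith
  · refine Lg.of' (fil_smul (mu_mem ?_) c)
    have h6 := mul_le_mul_of_nonneg_left
      (by omega : x.1 + ∑ y, (x.2.1 y : ℤ) * yo v i y ≤ -1) (by omega : (0 : ℤ) ≤ 2 * La)
    simp only [wt, mul_add, sum_add_distrib, mul_left_comm _ (2 * (La : ℤ)), ← mul_sum]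
    linarith

theorem th_n : PB v.rho (Om.e univ) ∈ U.NN.ge 0 := by
  have hz : ∀ x, (0 : ℤ) ≤ v.FV x + 2 * La * U.jV x := fun x =>
    add_nonneg (by omega) (mul_nonneg (by omega) (U.jV_nonneg x))
  have := (cg_e (F := U.NN) (PB v.rho).toRingHom (PB v.rho).toRingHom (wd := fun _ => 0) univ
    fun q _ => Fil.Cg.refl (fil_mono (wu := 2 * La) (wz := fun x => (v.FV x : ℤ) + 2 * La * U.jV x)
      (wd := 0) (fun x _ hx => hx.trans (by
      have := sum_nonneg (s := x.2.2) fun y _ => Int.natCast_nonneg (v.FV y)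
      simp only [wt, Pi.zero_apply, sum_const_zero]
      omega)) (by simpa [PB_dz] using d_bc_mem0 (wu := 2 * La) hz (v.rho (z q))))).lt
  simpa using this

theorem tgt_n : wt (2 * La) (fun x => v.FV x + 2 * La * U.jV x) (fun x => v.FV x)
    (Jx (p := p) w t, Om.top p V, univ) ≤
      ∑ i, tp (w i) N (t i) + (p * ∑ x ∈ v.Bad, v.FV x : ℕ) - 2 * La := by
  classical
  have hp := (Fact.out : p.Prime).one_le
  have h1 := U.tgt_j
  have e := U.sum_eq fun x => (p : ℤ) * v.FV x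
  simp only [← tp_eq (v := v)] at e
  have h2 : ∑ q : Xi w t, v.FV (v.em q.1) ≤ ∑ x ∈ v.Bad, v.FV x := by
    rw [← sum_image (s := univ) (g := fun q : Xi w t => v.em q.1) (f := v.FV) fun q _ q' _ h =>
      Subtype.ext (v.inj (Vx.ok_xi q.2) (Vx.ok_xi q'.2) h)]
    refine sum_le_sum_of_subset fun x hx => ?_
    obtain ⟨q, -, rfl⟩ := mem_image.1 hx
    exact v.bad q
  have h3 : (p : ℤ) * ∑ q : Xi w t, (v.FV (v.em q.1) : ℤ) ≤ (p * ∑ x ∈ v.Bad, v.FV x : ℕ) := by
    exact_mod_cast Nat.mul_le_mul_left p h2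
  simp only [wt, Om.top, Pi.zero_apply, sum_const_zero, one_mul, add_zero, mul_add,
    sum_add_distrib, mul_left_comm _ (2 * (La : ℤ)), ← mul_sum] at h1 e ⊢
  have h4 := mul_le_mul_of_nonneg_left (Int.le_sub_one_of_lt h1) (by omega : (0 : ℤ) ≤ 2 * La)
  rw [Nat.cast_sub hp] at h4 ⊢
  push_cast at h3 h4 ⊢
  linarith

theorem De_j (a : V → ℕ) (ha : cf a v.De ≠ 0) : 1 ≤ ∑ x, a x * U.jV x := by
  have h1 : ((1 : ℕ) : ℤ) ≤ _ := Nat.cast_le.2 (v.hDeL a ha)
  push_cast at h1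
  refine h1.trans (sum_le_sum fun x _ => mul_le_mul_of_nonneg_left ?_ (by omega))
  have := U.jV_nonneg x
  unfold yL
  split_ifs with h2
  · obtain ⟨i, y, h3, hy, rfl⟩ := h2
    exact (U.jV_y ⟨⟨i, y⟩, h3, hy⟩).ge
  · simpa using this

theorem De_n (a : V → ℕ) (ha : cf a v.De ≠ 0) :
    2 * (La : ℤ) ≤ ∑ x, a x * (v.FV x + 2 * La * U.jV x) := by
  have h1 := mul_le_mul_of_nonneg_left (U.De_j a ha) (by omega : (0 : ℤ) ≤ 2 * La)
  have h2 : (0 : ℤ) ≤ ∑ x, (a x : ℤ) * v.FV x := sum_nonneg fun x _ => by positivity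
  simp only [mul_add, sum_add_distrib, mul_left_comm _ (2 * (La : ℤ)), ← mul_sum]
  linarith

theorem De_w : U.WW.Cg 0 (Om.fn (GG v) * Om.fn (O.E (xu v.De))) (Om.fn (GG v)) := by
  have h1 : U.WW.Cg 0 (Om.fn (O.E (xu v.De))) 1 := ⟨Fil.one _, E_De (by omega) fun a ha => by
    have h2 := U.ge_w (hi_iff.1 v.hDe) a ha
    have h3 : (2 : ℤ) ≤ U.M := by exact_mod_cast U.two
    push_cast at h2
    linarith⟩
  have := (Fil.Cg.refl (F := U.WW) (GG_mem (v := v) fun b => by
    rw [U.wV_y, U.wV_m]; omega)).mul h1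
  rwa [add_zero, mul_one] at this

include U in
theorem term_one (hal : ∀ i, (w i).kd (al i) = none) {η : ∀ i, Om p (Au p) (s i)}
    (h : ∀ i, In ((w i).Lt N La (t i) (al i)) (η i - mu ((w i).ld (t i) (al i)))) :
    cu (Jx (p := p) w t, Om.top p V, univ) (PB (v.io 0) (η 0) * PB (v.io 1) (η 1) *
      PB (v.io 2) (η 2) * PB v.rho (Om.e univ) *
      (Om.fn (GG v) * Om.fn (O.E (xu v.De)))) = 0 := by
  have hs : 4 * ((p * ∑ x ∈ v.Bad, v.FV x : ℕ) : ℤ) < La := by exact_mod_cast v.small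
  have hg : (0 : ℤ) ≤ 2 * La - 2 * (p * ∑ x ∈ v.Bad, v.FV x : ℕ) := by omega
  have h1 := fun i => U.split (U.eta_c (hal i) (h i))
  refine (((((h1 0).mul hg (h1 1)).mul hg (h1 2)).mul hg (Lg.of U.th_n U.th_j)).mul hg
    (Lg.of (s := 0) (Fil.mul' _ (GG_mem fun b => ?_) (E_De' U.De_n) (by omega))
      (Fil.mul' _ (GG_mem fun b => ?_) (E_De' U.De_j) (by omega)))).eq_zero _
    (fun a ha => cu_eq_zero ?_ ha) fun a ha => cu_eq_zero U.tgt_j ha
  · rw [U.jV_y, U.jV_m]; omega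
  · rw [U.jV_y, U.jV_m]; omega
  · have := U.tgt_n
    rw [Fin.sum_univ_three] at this
    omega

end Su

theorem r_em {al : ∀ i, s i} (hal : ∀ i, (w i).kd (al i) = none) {i : Fin 3} {x : s i} {b : Bool}
    (h : Ok w t (⟨i, x⟩, b)) :
    (∑ j, Pi.single (v.em (⟨j, al j⟩, !t j)) 1 : V → ℕ) (v.em (⟨i, x⟩, b)) =
      if x = al i ∧ b = !t i then 1 else 0 := by
  rw [Finset.sum_apply, sum_eq_single i]
  · rw [Pi.single_apply]
    refine if_congr ⟨fun h' => ?_, by rintro ⟨rfl, rfl⟩; rfl⟩ rfl rfl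
    simpa using v.inj h (ok_n hal i) h'
  · intro j _ hj
    refine Pi.single_eq_of_ne (fun h' => hj ?_) _
    exact (congrArg (fun q => q.1.1) (v.inj h (ok_n hal j) h')).symm
  · simp

theorem Su.gauss (U : Su v) {al : ∀ i, s i} (hal : ∀ i, (w i).kd (al i) = none) :
    ∃ c : ZMod p, c ≠ 0 ∧ (cf (Om.top p V - U.a0 al) (GG v * bc (Au p) v.Ps)).coeff
      (Jx (p := p) w t - (∑ i, ((w i).ld (t i) (al i)).1 - 1)) = c * v.cub al := by
  have hp := (Fact.out : p.Prime).two_le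
  have oy : ∀ b : Bi w t, Ok w t (b.1, false) := fun b => Vx.ok_xi (q := (b.1, false)) b.2
  have om : ∀ b : Bi w t, Ok w t (b.1, true) := fun b => Vx.ok_xi (q := (b.1, true)) b.2
  have ky : ∀ b : Bi w t, (w b.1.1).kd b.1.2 ≠ some (!t b.1.1) := fun b => by rw [b.2.2]; simp
  have hr : ∀ x, (Om.top p V - U.a0 al) x < p := fun x => by
    simp only [Pi.sub_apply, Om.top]; omega
  have := cf_gauss (fun b : Bi w t => v.em (b.1, false)) (fun b : Bi w t => v.em (b.1, true))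
    (fun b b' h => Subtype.ext (congrArg Prod.fst (v.inj (oy b) (oy b') h)))
    (fun b b' h => Subtype.ext (congrArg Prod.fst (v.inj (om b) (om b') h)))
    (fun b b' h => by simpa using congrArg Prod.snd (v.inj (oy b) (om b') h))
    (fun b => v.c b.1.1 b.1.2) (Om.top p V - U.a0 al)
    (∑ j, Pi.single (v.em (⟨j, al j⟩, !t j)) 1) hr
    (fun b => by rw [r_em hal (oy b), if_neg (by simp [b.2.1])])
    (fun b => by
      have hn : b.1.2 ∉ (w b.1.1).nr (t b.1.1) := fun h => not_xi h true b.2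
      simp only [Pi.sub_apply, Om.top]
      rw [r_em hal (om b), U.a0_m, U.a0_em (ky b)]
      simp only [Wall.ld, hn]
      by_cases h : b.1.2 = al b.1.1 <;> simp [h, b.2.1]
      omega)
    (fun x h1 h2 => by
      have h3 := U.em_pr x
      have h4 := U.ok x
      generalize U.pr x = q at h3 h4
      obtain ⟨⟨i, y⟩, b⟩ := q
      subst h3
      rcases ok_cases h4 with h5 | ⟨h5, h6⟩
      · cases b
        exacts [absurd rfl (h1 ⟨_, h5⟩), absurd rfl (h2 ⟨_, h5⟩)]
      simp only at h5 h6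
      subst h5
      simp only [Pi.sub_apply, Om.top]
      rw [r_em hal h4, U.a0_em (ne_of_nr h6)]
      simp only [Wall.ld, h6]
      by_cases h : y = al i
      · subst h
        have : t i = true := by simpa [mem_nr, hal i] using h6
        simp [this]
        omega
      · simp [h]) v.Ps
  have hne : ∀ i j : Fin 3, i ≠ j → v.em (⟨i, al i⟩, !t i) ≠ v.em (⟨j, al j⟩, !t j) :=
    fun i j hij h => hij (congrArg (fun q => q.1.1) (v.inj (ok_n hal i) (ok_n hal j) h))
  rw [Fin.sum_univ_three, ← cub_eq (hne 0 1 (by simp)) (hne 0 2 (by simp)) (hne 1 2 (by simp))]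
    at this
  refine ⟨_, prod_ne_zero_iff.2 fun b _ => mul_ne_zero (ic_ne (hr _))
    (pow_ne_zero _ (neg_ne_zero.2 (v.hc _ _ b.2.1 b.2.2))), Eq.trans ?_ this⟩
  congr 1
  have e1 : ∀ b : Bi w t, (((Om.top p V - U.a0 al) (v.em (b.1, false)) : ℕ) : ℤ) =
      ((p - 1 : ℕ) : ℤ) - ((w b.1.1).ld (t b.1.1) (al b.1.1)).2.1 b.1.2 := fun b => by
    rw [← U.a0_em (ky b)]
    exact Nat.cast_sub (U.a0_le _)
  have e2 := sum_bi (w := w) (t := t) fun q => (((w q.1).ld (t q.1) (al q.1)).2.1 q.2 : ℤ)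
  have e3 := sum_eq_zero (s := univ) fun i _ => ld_j (w := w i) (b := t i) (hal i)
  simp only [Wall.jw, sum_add_distrib] at e3
  simp only [e1, sum_sub_distrib, e2, sum_const, card_univ, nsmul_eq_mul, Jx]
  linear_combination -e3

theorem Su.val (U : Su v) {al : ∀ i, s i} (hal : ∀ i, (w i).kd (al i) = none)
    (h : cu (Jx (p := p) w t, Om.top p V, univ)
      (PB (rn fun x => v.em (⟨0, x⟩, false)) (mu ((w 0).ld (t 0) (al 0))) *
      PB (rn fun x => v.em (⟨1, x⟩, false)) (mu ((w 1).ld (t 1) (al 1))) *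
      PB (rn fun x => v.em (⟨2, x⟩, false)) (mu ((w 2).ld (t 2) (al 2))) *
      PB (rn fun q : Xi w t => v.em q.1) (Om.e univ) *
      (Om.fn (GG v) * Om.fn (xu v.Ps))) = 0) : v.cub al = 0 := by
  obtain ⟨ε, h1, h2⟩ := U.sq_lead
  obtain ⟨c, hc, h3⟩ := U.gauss hal
  have h4 := U.prod_lead hal
  rw [Fin.prod_univ_three] at h4
  rw [PB_rn_mu, PB_rn_mu, PB_rn_mu, ← map_mul, Om.mul_fn, smul_mul_smul_comm, smul_mul_smul_comm,
    smul_mul_assoc, smul_smul] at h
  erw [h2] at h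
  rw [smul_comm, map_zsmul, cu_top, smul_mul_smul_comm, smul_mul_smul_comm, h4, xu,
    mul_smul_comm _ (GG v), smul_mul_smul_comm, map_smul, mul_comm _ (zm _),
    gc_cf_zm_mul (Om.top p V) _ (fun _ => Nat.sub_lt (Fact.out : p.Prime).pos one_pos),
    if_pos (show ∀ x, U.a0 al x ≤ Om.top p V x from U.a0_le),
    smul_eq_mul, neg_mul, neg_mul, ← T_add, ← T_add, ← T_add, AddMonoidAlgebra.coeff_neg,
    Finsupp.neg_apply, coeff_T_mul] at h
  rw [Fin.sum_univ_three, sub_eq_neg_add _ (1 : ℤ)] at h3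
  rw [h3, zsmul_eq_mul] at h
  have h5 : (ε : ZMod p) * ε = 1 := by exact_mod_cast congrArg (Int.cast : ℤ → ZMod p) h1
  refine (mul_eq_zero.1 (?_ : c * v.cub al = 0)).resolve_left hc
  linear_combination (-ε) * h - (c * v.cub al) * h5

theorem vertex_onto (v : VxD w t N La V) (onto : ∀ x : V, ∃ q, Ok w t q ∧ v.em q = x)
    {al : ∀ i, s i} (hal : ∀ i, (w i).kd (al i) = none) (hG : ∀ i, (w i).Gh N La (t i) (al i))
    (hT : ∀ i, (w i).Test N La (t i) (al i)) : v.cub al = 0 := by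
  choose pr ok em_pr using onto
  have hLa : 1 ≤ La := ((hG 0).pos (al 0)).trans_le ((hG 0).le _ (hal 0))
  choose C hC using fun i => exists_M (w i) N hLa
  let U : Su v := ⟨pr, ok, em_pr, fun i => (hG i).pos, fun i => (hG i).le, ∑ i, C i + 2, by omega⟩
  have hM : ∀ i, (C i : ℤ) + 2 ≤ U.M := fun i => by
    have := single_le_sum (f := C) (fun _ _ => Nat.zero_le _) (mem_univ i)
    exact_mod_cast Nat.add_le_add_right this 2
  have h2 : (2 : ℤ) ≤ U.M * La := by
    have : (1 : ℤ) ≤ La := by exact_mod_cast hLa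
    nlinarith [hM 0, Int.natCast_nonneg (C 0)]
  choose ze h cl hh hη using hT
  have h0 := U.lhs (a := fun i => Om.d (ze i) + h i) (fun i => ⟨cl i, ze i, rfl⟩) hh
  have ps : ∀ a, cf a v.Ps ≠ 0 → 3 * ((U.M : ℤ) * La) ≤ ∑ x, a x * U.wV x := fun a ha =>
    le_trans (by push_cast; linarith) (U.ge_w v.hPs a ha)
  have h1 := rhs_abs U.WW (cu (Jx (p := p) w t, Om.top p V, univ)) (l := U.M * La - 1)
    (η := fun i => PB (v.io i) _)
    (G := Om.fn (GG v) * Om.fn (O.E (xu v.De))) (E := Om.fn (O.E (xu v.Ps))) (ψ := Om.fn (xu v.Ps))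
    (fun a ha => cu_eq_zero (by rw [U.tgt_w hal]; exact lt_add_one _) ha) (U.term_one hal hη)
    (fun i => U.eta_w (hal i) (hG i) (fun x hx hx' =>
      le_trans (by have := hM i; omega) (hC i _ _ x hx hx')) (hη i))
    U.De_w U.th_w
    (Fil.mono _ (xu_fil (fn_bc_mem ps)) (by omega))
    (Fil.mono _ (E_xu_sub (l := U.M * La - 1) (by omega) v.Ps2 fun a ha =>
      le_trans (by omega) (ps a ha)) (by omega)) (by rw [Fin.sum_univ_three])
  refine U.val hal (h1.symm.trans (Eq.trans ?_ h0))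
  congr 1
  simp only [PB_smul, up_Eu]
  rw [← map_mul, ← map_mul, Om.mul_fn, smul_mul_smul_comm, smul_mul_smul_comm, smul_mul_assoc,
    smul_smul, mul_comm (GG v * _ * _), E_all, mul_smul_comm]
  rfl

theorem vertexD_holds : VertexD := by
  intro p _ Γ _ δ s _ _ w t N La V _ v al hal hG hT
  classical
  let x0 : {x // v.Us x} := ⟨_, _, ok_y (hal 0), rfl⟩
  rw [← v.red_cub x0 hal]
  exact vertex_onto (v.red x0) (v.red_onto x0) hal hG hT

theorem vertexH_holds : VertexH := vertexH_of vertexD_holds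



end N255.Vh
end

-- ▼ part N255/Core/TypK

/-! Row 255 (helper45): the typed core with the `M` side chosen per orbit of walls. -/

set_option autoImplicit false

namespace N255.Core

open N255.Dr N255.Dr.O Finset Crest.Agent.N255.Pt Crest.Agent.N255.Lv

variable {ι : Type} {F : Subgroup (FreeGroup ι)}

/-- the representative whose back side is the `M` side -/
noncomputable def rk (ka : Wo F → Bool) (c : Wo F) : Ed ι := if ka c = true then rev (rp c) else rp c

/-- `true` iff the origin of the half edge `e` lies on the `M` side -/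
def tk (ka : Wo F → Bool) (e : Ed ι) : Bool := xor e.k.2 (ka (cl F e))

/-- the orientation of `e` whose back side is the `M` side -/
def ek (ka : Wo F → Bool) (e : Ed ι) : Ed ι := if tk ka e = true then e else rev e

variable (ka : Wo F → Bool)

@[simp] theorem cl_rk (c : Wo F) : cl F (rk ka c) = c := by unfold rk; split_ifs <;> simp


theorem tk_rev (e : Ed ι) : tk ka (rev e) = !tk ka e := by
  rw [tk, cl_rev, tk]
  show xor (!e.k.2) _ = _
  cases e.k.2 <;> cases ka (cl F e) <;> rfl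

theorem tk_smul (f : F) (e : Ed ι) : tk ka (f.1 • e) = tk ka e := by rw [tk, cl_smul]; rfl

@[simp] theorem tk_rk (c : Wo F) : tk ka (rk ka c) = true := by
  rw [tk, cl_rk, rk]
  cases ka c <;> rfl

theorem ek_true {e : Ed ι} (h : tk ka e = true) : ek ka e = e := if_pos h

theorem ek_false {e : Ed ι} (h : tk ka e = false) : ek ka e = rev e := if_neg (by simp [h])

@[simp] theorem cl_ek (e : Ed ι) : cl F (ek ka e) = cl F e := by unfold ek; split_ifs <;> simp

@[simp] theorem tk_ek (e : Ed ι) : tk ka (ek ka e) = true := by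
  cases h : tk ka e
  · rw [ek_false ka h, tk_rev, h]; rfl
  · rw [ek_true ka h, h]

/-- every edge, oriented with the `M` side behind it, is a translate of the representative -/
theorem exists_rk (e : Ed ι) : ∃ f : F, f.1 • rk ka (cl F e) = ek ka e := by
  obtain ⟨f, hf⟩ := exists_rp (F := F) e
  refine ⟨f, ?_⟩
  rw [pe_eq] at hf
  unfold rk ek tk
  cases h : ka (cl F e) <;> cases h' : e.k.2 <;> simp only [h'] at hf
  · simpa using hf
  · simpa using hf
  · simpa [← rev_smul] using congrArg rev hf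
  · simpa [← rev_smul] using congrArg rev hf

theorem NoLab.flip (h : NoLab F) (σ : Wo F → Bool) :
    ∃ (v : FreeGroup ι) (u : ι → Bool), ∀ i, σ (cl F ⟨v, (i, u i)⟩) = tk ka ⟨v, (i, u i)⟩ := by
  obtain ⟨v, u, hu⟩ := h fun c => xor (σ c) (ka c)
  refine ⟨v, u, fun i => ?_⟩
  have := hu i
  rw [tk]
  show _ = xor (u i) _
  generalize σ (cl F ⟨v, (i, u i)⟩) = a, ka (cl F ⟨v, (i, u i)⟩) = b at this ⊢
  rw [← this]
  cases a <;> cases b <;> rfl


/-- the same without defect -/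
theorem coreKH (p : ℕ) [Fact p.Prime] (hp2 : p ≠ 2) (Γ : Type) [AddCommGroup Γ] (δ : Γ)
    {F : Subgroup (FreeGroup (Fin 3))} (hF : NoLab F) (ka : Wo F → Bool) (s : Wo F → Type)
    [∀ c, Fintype (s c)] (w : ∀ c, Wall p Γ δ (s c)) (N La : ℕ) (D : ∀ c, ZMod p → s c)
    (hDk : ∀ c d, (w c).kd (D c d) = none) (hpos : ∀ c x, 0 < N + (w c).F x)
    (hle : ∀ c x, (w c).kd x = none → N + (w c).F x ≤ La) (hO : Odd La)
    (hE : ∀ c x, Even (N + (w c).F x)) (m0 : ZMod p)
    (h : ∀ (v : FreeGroup (Fin 3)) (u : Fin 3 → Bool), ∃ (V : Type) (_ : Fintype V)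
      (x : VxH (fun i => w (cl F ⟨v, (i, u i)⟩)) (fun i => tk ka ⟨v, (i, u i)⟩) N La V),
        ∀ d : Fin 3 → ZMod p, ∑ i, (if tk ka ⟨v, (i, u i)⟩ = true then d i else m0 - d i) = m0 →
          x.cub (fun i => D _ (d i)) ≠ 0) : False := by
  classical
  obtain ⟨σ, hσ⟩ := exists_strong hp2 w N hO.pos hDk
  obtain ⟨v, u, hu⟩ := hF.flip ka σ
  obtain ⟨V, _, x, hx⟩ := h v u
  exact no_threeH N255.Vh.vertexH_holds x (fun i => hDk _)
    (fun i d => (w _).gh_of N La (hDk _ d) (hpos _) (hle _) (Or.inr ⟨hO, hE _⟩)) hx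
    fun i => by have := hσ (cl F ⟨v, (i, u i)⟩); rwa [hu i] at this

end N255.Core
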