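import Crest.Agent.N255.Core.Gen
import Crest.Agent.N255.Core.Stm
import Crest.Agent.N255.Dr.Wt
import Crest.Agent.N255.Dr.Lu

-- ▼ part N255/Core/Ar
section

/-! Row 255, algebraic core: the arithmetic condition `Gd`. -/

set_option autoImplicit false

namespace N255.Core

open Finset

variable {p : ℕ} [hp : Fact p.Prime] {Γ : Type} [AddCommGroup Γ] {δ : Γ} {s : Type} [Fintype s]
  [DecidableEq s]

namespace Wall

variable (w : Wall p Γ δ s) (N La : ℕ)

/-- the `y`-degree -/
def ky (x : Ix s) : ℤ := ∑ i, if w.kd i = none then (x.2.1 i : ℤ) else 0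

/-- the part of the weight carried by one variable, without the functions `y` -/
def gv (x : Ix s) (i : s) : ℤ :=
  (if w.kd i = none then 0 else (x.2.1 i : ℤ) * (N + w.F i)) + if i ∈ x.2.2 then (N + w.F i : ℤ)
    else 0

/-- the largest value of `gv` -/
def tv (i : s) : ℤ := if w.kd i = none then (N + w.F i : ℤ) else p * (N + w.F i)

omit hp in
theorem wW_eq2 (x : Ix s) : w.wW N La x = 2 * La * x.1 + La * w.ky x + ∑ i, w.gv N x i := by
  unfold wW wt ky gv
  rw [sum_add_distrib (s := univ), sum_ite_mem, univ_inter, mul_sum, add_assoc (2 * (La : ℤ) * x.1),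
    add_assoc (2 * (La : ℤ) * x.1), ← add_assoc (∑ i, (La : ℤ) * _), ← sum_add_distrib]
  congr 2
  refine sum_congr rfl fun i _ => ?_
  beta_reduce
  split_ifs <;> ring

omit hp in
theorem gv_nonneg (x : Ix s) (i : s) : 0 ≤ w.gv N x i := by
  unfold gv
  split_ifs <;> positivity

omit hp in
theorem gv_le {x : Ix s} (hx : ∀ i, x.2.1 i < p) (i : s) : w.gv N x i ≤ w.tv N i := by
  have h1 : (x.2.1 i : ℤ) + 1 ≤ p := by exact_mod_cast hx i
  have h2 : (0 : ℤ) ≤ N + w.F i := by positivity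
  unfold gv tv
  split_ifs <;> nlinarith

omit [DecidableEq s] in
theorem tv_le (i : s) : w.tv N i ≤ (p * (N + w.F i) : ℕ) := by
  have h1 : (1 : ℤ) ≤ p := by exact_mod_cast hp.out.one_le
  have h2 : (0 : ℤ) ≤ N + w.F i := by positivity
  unfold tv
  push_cast
  split_ifs <;> nlinarith

omit hp [DecidableEq s] in
theorem mem_nr2 {b : Bool} {i : s} :
    i ∈ w.nr b ↔ w.kd i = some b ∨ (b = true ∧ w.kd i = none) := by simp [nr]

theorem gv_ld (b : Bool) {al : s} (hal : w.kd al = none) (i : s) :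
    w.gv N (w.ld b al) i = if i ∈ w.nr b then w.tv N i else 0 := by
  have h1 : ((p - 1 : ℕ) : ℤ) = p - 1 := by rw [Nat.cast_sub hp.out.one_le]; simp
  unfold gv tv
  by_cases hi : w.kd i = none
  · simp [hi, ld]
  · have : i ≠ al := fun e => hi (e ▸ hal)
    by_cases hn : i ∈ w.nr b
    · simp only [hi, ld, this, hn, if_true, if_false, h1]; ring
    · simp [hi, ld, this, hn]

theorem sum_gv_ld (b : Bool) {al : s} (hal : w.kd al = none) :
    ∑ i, w.gv N (w.ld b al) i = ∑ i ∈ w.nr b, w.tv N i := by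
  simp only [w.gv_ld N b hal, sum_ite_mem, univ_inter]

/-- the largest `y`-degree -/
def kt : ℤ := ∑ i, if w.kd i = none then (p - 1 : ℤ) else 0

omit hp [DecidableEq s] in
theorem ky_le {x : Ix s} (hx : ∀ i, x.2.1 i < p) : w.ky x ≤ w.kt :=
  sum_le_sum fun i _ => by
    have h1 : (x.2.1 i : ℤ) + 1 ≤ p := by exact_mod_cast hx i
    split_ifs <;> omega

omit hp [DecidableEq s] in
theorem ky_nonneg (x : Ix s) : 0 ≤ w.ky x :=
  sum_nonneg fun i _ => by split_ifs <;> positivity

theorem ky_ld_true {al : s} (hal : w.kd al = none) : w.ky (w.ld true al) = w.kt - 1 := by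
  have h1 : ((p - 1 : ℕ) : ℤ) = p - 1 := by rw [Nat.cast_sub hp.out.one_le]; simp
  have h2 : ((p - 2 : ℕ) : ℤ) = p - 2 := by rw [Nat.cast_sub hp.out.two_le]; simp
  have : (1 : ℤ) = ∑ i, if i = al then 1 else 0 := by simp
  rw [this, ky, kt, ← sum_sub_distrib]
  refine sum_congr rfl fun i _ => ?_
  by_cases hi : i = al
  · subst hi; simp only [hal, ld, if_true, h2]; ring
  · by_cases hk : w.kd i = none
    · simp [hk, ld, hi, mem_nr2, h1]
    · simp [hk, hi]






end Wall

end N255.Core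
namespace N255.Core.Wall.Adm
end N255.Core.Wall.Adm
end

-- ▼ part N255/Core/All
section

/-! Row 255, algebraic core: `CoreS` from the dichotomy and the vertex theorem. -/

set_option autoImplicit false

namespace N255.Core

open N255.Dr N255.Dr.O

section Kill

variable {p : ℕ} [Fact p.Prime] {V : Type}

open Classical in
/-- put the variables outside `A` equal to zero -/
noncomputable def kill (A : V → Prop) : O p (ZMod p) V →ₐ[ZMod p] O p (ZMod p) {x // A x} :=
  sub (fun x => if h : A x then z ⟨x, h⟩ else 0) fun x => by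
    split_ifs
    · exact z_mem _
    · exact zero_mem _

theorem kill_z {A : V → Prop} {x : V} (h : A x) :
    kill A (z x : O p (ZMod p) V) = z ⟨x, h⟩ := by
  rw [kill, sub_z, dif_pos h]

theorem kill_z_not {A : V → Prop} {x : V} (h : ¬ A x) : kill A (z x : O p (ZMod p) V) = 0 := by
  rw [kill, sub_z, dif_neg h]

theorem kill_z_mem (A : V → Prop) (x : V) :
    kill A (z x : O p (ZMod p) V) ∈ (mx : Ideal (O p (ZMod p) {x // A x})) := by
  by_cases h : A x
  · rw [kill_z h]; exact z_mem _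
  · rw [kill_z_not h]; exact zero_mem _

theorem aug_kill (A : V → Prop) (f : O p (ZMod p) V) : aug (kill A f) = aug f := by
  have : (aug : O p (ZMod p) {x // A x} →ₐ[ZMod p] ZMod p).comp (kill A) = aug :=
    hom_ext fun x => by
      rw [AlgHom.comp_apply, aug_z]
      exact mem_mx.1 (kill_z_mem A x)
  exact DFunLike.congr_fun this f

theorem pd_kill [Finite V] (A : V → Prop) (x : {x // A x}) (f : O p (ZMod p) V) :
    pd x (kill A f) = kill A (pd x.1 f) := by
  classical
  have := Fintype.ofFinite V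
  rw [chain (kill A) (pd x) f, Finset.sum_eq_single x.1]
  · rw [kill_z x.2, pd_z_self, smul_eq_mul, mul_one]
  · intro y _ hy
    by_cases h : A y
    · rw [kill_z h, pd_z_ne, smul_zero]
      intro e
      exact hy (congrArg Subtype.val e).symm
    · rw [kill_z_not h, map_zero, smul_zero]
  · simp

theorem lin_kill [Finite V] (A : V → Prop) (x : {x // A x}) (f : O p (ZMod p) V) :
    lin x (kill A f) = lin x.1 f := by
  rw [lin, pd_kill, aug_kill, lin]

end Kill

variable {p : ℕ} [Fact p.Prime] {Γ : Type} [AddCommGroup Γ] {δ : Γ} {s : Fin 3 → Type}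
  [∀ i, Fintype (s i)] {w : ∀ i, Wall p Γ δ (s i)} {t : Fin 3 → Bool} {V : Type}

/-- the variables that are not extra -/
def Vx.Us (v : Vx w t V) (x : V) : Prop := ∃ q, Ok w t q ∧ v.em q = x

open Classical in
/-- the indexing of the variables that are not extra -/
noncomputable def Vx.em' (v : Vx w t V) (x0 : {x // v.Us x}) (q : (Σ i, s i) × Bool) :
    {x // v.Us x} := if h : Ok w t q then ⟨v.em q, q, h, rfl⟩ else x0

theorem Vx.em'_val (v : Vx w t V) (x0 : {x // v.Us x}) {q : (Σ i, s i) × Bool} (h : Ok w t q) :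
    (v.em' x0 q).1 = v.em q := by
  rw [Vx.em', dif_pos h]

theorem Vx.kill_em (v : Vx w t V) (x0 : {x // v.Us x}) {q : (Σ i, s i) × Bool} (h : Ok w t q) :
    kill v.Us (z (v.em q) : O p (ZMod p) V) = z (v.em' x0 q) := by
  rw [kill_z ⟨q, h, rfl⟩, Vx.em', dif_pos h]

theorem Vx.up' [Finite V] (v : Vx w t V) (x0 : {x // v.Us x}) {n : ℕ} {f : O p (ZMod p) V}
    (h : Up w t v.em v.FV n f) : Up w t (v.em' x0) v.FV n (kill v.Us f) :=
  ⟨map_mx _ (kill_z_mem _) h.1, fun q hq hn => by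
    rw [lin_kill, v.em'_val x0 hq]; exact h.2 q hq hn⟩

omit [Fact p.Prime] in
theorem ok_y {i : Fin 3} {x : s i} (h : (w i).kd x = none) : Ok w t (⟨i, x⟩, false) :=
  Or.inl ⟨rfl, by simp [h]⟩

omit [Fact p.Prime] in
theorem ok_near {i : Fin 3} {x : s i} (h : (w i).kd x = some (t i)) : Ok w t (⟨i, x⟩, false) :=
  Or.inl ⟨rfl, by simp [h]⟩

omit [Fact p.Prime] in
theorem ok_m {i : Fin 3} {x : s i} (ht : t i = false) (h : (w i).kd x = none) :
    Ok w t (⟨i, x⟩, true) := Or.inr ⟨rfl, ht, h⟩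

omit [Fact p.Prime] in
theorem ok_xi (q : Xi w t) : Ok w t q.1 := by
  obtain ⟨⟨⟨i, x⟩, b⟩, ht, h⟩ := q
  cases b
  · exact ok_y h
  · exact ok_m ht h

omit [Fact p.Prime] in
theorem ok_dir {i : Fin 3} {x : s i} (h : (w i).kd x = none) : Ok w t (⟨i, x⟩, !t i) := by
  cases ht : t i
  · exact ok_m ht h
  · exact ok_y h

/-- the vertex identity without extra variables -/
noncomputable def Vx.red [Finite V] (v : Vx w t V) (x0 : {x // v.Us x}) :
    Vx w t {x // v.Us x} where
  em := v.em' x0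
  inj := fun q hq q' hq' e => v.inj hq hq' (by
    rw [← v.em'_val x0 hq, ← v.em'_val x0 hq', e])
  FV := v.FV
  hF := v.hF
  io i := (kill v.Us).comp (v.io i)
  hy i x h := by rw [AlgHom.comp_apply, v.hy i x h, v.kill_em x0 (ok_y h)]
  near i x h := by
    have := v.up' x0 (v.near i x h)
    rwa [map_sub, v.kill_em x0 (ok_near h)] at this
  far i x h := v.up' x0 (v.far i x h)
  rho := (kill v.Us).comp v.rho
  hrho q := by
    have := v.up' x0 (v.hrho q)
    rwa [map_sub, v.kill_em x0 (ok_xi q)] at this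
  Q := v.Q
  hQ := v.hQ
  c := v.c
  hc := v.hc
  Ps := kill v.Us v.Ps
  hPs := by
    have h := Ideal.mem_map_of_mem (kill v.Us) v.hPs
    rw [Ideal.map_pow] at h
    refine Ideal.pow_right_mono ?_ 3 h
    rw [Ideal.map_span, Ideal.span_le]
    rintro _ ⟨_, ⟨x, rfl, hx⟩, rfl⟩
    by_cases hu : v.Us x
    · rw [kill_z hu]
      refine Ideal.subset_span ⟨_, rfl, fun i y hy e => hx i y hy ?_⟩
      rw [← v.em'_val x0 (ok_near hy), ← e]
    · rw [kill_z_not hu]; exact zero_mem _
  eq := by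
    have h := congrArg (kill v.Us) v.eq
    rw [map_add, map_add, map_sum, map_sum] at h
    rw [AlgHom.comp_apply, ← h]
    congr 2
    · refine Finset.sum_congr rfl fun i _ => ?_
      split_ifs <;> simp
    · refine Finset.sum_congr rfl fun i _ => ?_
      rw [map_sum]
      refine Finset.sum_congr rfl fun x _ => ?_
      split_ifs with hx
      · rw [map_smul, map_mul, v.kill_em x0 (ok_y hx.2), v.kill_em x0 (ok_m hx.1 hx.2)]
      · simp

theorem Vx.red_cub [Finite V] (v : Vx w t V) (x0 : {x // v.Us x}) {al : ∀ i, s i}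
    (h : ∀ i, (w i).kd (al i) = none) : (v.red x0).cub al = v.cub al := by
  simp only [Vx.cub, Vx.red]
  rw [pd_kill, pd_kill, pd_kill, aug_kill, v.em'_val x0 (ok_dir (h 0)),
    v.em'_val x0 (ok_dir (h 1)), v.em'_val x0 (ok_dir (h 2))]


open Classical in
/-- the side `b` of a wall is strong: it has tests in more than half of the directions `D` -/
def Wall.Strong {s : Type} [Fintype s] [DecidableEq s] (w : Wall p Γ δ s) (N La : ℕ) (b : Bool)
    (D : ZMod p → s) : Prop :=
  p < 2 * Nat.card {d : ZMod p // w.Test N La b (D d)}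


theorem pigeon3 (A : Fin 3 → Finset (ZMod p)) (h : ∀ i, p < 2 * (A i).card) (m0 : ZMod p) :
    ∃ d : Fin 3 → ZMod p, (∀ i, d i ∈ A i) ∧ ∑ i, d i = m0 := by
  classical
  have hp0 : NeZero p := ⟨(Fact.out : p.Prime).ne_zero⟩
  obtain ⟨c, hc⟩ : (A 2).Nonempty := Finset.card_pos.1 (by have := h 2; omega)
  have hi : Function.Injective fun b : ZMod p => m0 - c - b := sub_right_injective
  have h1 : ¬ Disjoint (A 0) ((A 1).map ⟨_, hi⟩) := fun hd => by
    have h2 := Finset.card_le_univ (A 0 ∪ (A 1).map ⟨_, hi⟩)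
    rw [Finset.card_union_of_disjoint hd, Finset.card_map, ZMod.card] at h2
    have := h 0
    have := h 1
    omega
  obtain ⟨a, ha, ha'⟩ := Finset.not_disjoint_iff.1 h1
  obtain ⟨b, hb, rfl⟩ := Finset.mem_map.1 ha'
  refine ⟨![m0 - c - b, b, c], fun i => ?_, ?_⟩
  · fin_cases i
    · exact ha
    · exact hb
    · exact hc
  · simp [Fin.sum_univ_three]



end N255.Core
end

-- ▼ part N255/Dr/Br
section

/-! Bridge between the statements of `Core/Stm` and the monomial calculus of `Dr`. -/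

set_option autoImplicit false

namespace N255.Dr

open Finset LaurentPolynomial N255.Core

variable {p : ℕ} [Fact p.Prime] {s : Type} [Fintype s] [DecidableEq s]






theorem lin_eq_cf (v : s) (f : O p (ZMod p) s) : lin v f = O.cf (Pi.single v 1) f := by
  rw [lin, ← O.cf_zero, O.cf_pd]; simp

end N255.Dr
end

-- ▼ part N255/Core/Wr
section

/-! Row 255, algebraic core: wrappers (linear hypotheses, extra variables, change of weights) and
the producer form `CoreG`. -/

set_option autoImplicit false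

namespace N255.Core

open N255.Dr N255.Dr.O Finset

variable {p : ℕ} [hp : Fact p.Prime] {Γ : Type} [AddCommGroup Γ] {δ : Γ}

section Hi
variable {V : Type} [Fintype V] {FV : V → ℕ} {n : ℕ} {f g : O p (ZMod p) V}

theorem Hi.mono (h : Hi FV n f) {FV' : V → ℕ} {n' : ℕ} (hF : ∀ v, FV v ≤ FV' v) (hn : n' ≤ n) :
    Hi FV' n' f := fun a ha =>
  hn.trans_lt ((h a ha).trans_le (sum_le_sum fun v _ => Nat.mul_le_mul_left _ (hF v)))

theorem Hi.mem (h : Hi FV n f) : f ∈ (mx : Ideal (O p (ZMod p) V)) := by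
  rw [mem_mx, ← cf_zero]
  by_contra h0
  simpa using h 0 h0

theorem Hi.zero : Hi FV n (0 : O p (ZMod p) V) := fun a ha => by simp at ha

theorem Hi.add (h : Hi FV n f) (h' : Hi FV n g) : Hi FV n (f + g) := fun a ha => by
  by_cases h1 : cf a f = 0
  · exact h' a (by simpa [h1] using ha)
  · exact h a h1

theorem Hi.neg (h : Hi FV n f) : Hi FV n (-f) := fun a ha => h a (by simpa using ha)

theorem Hi.sub (h : Hi FV n f) (h' : Hi FV n g) : Hi FV n (f - g) := by
  rw [sub_eq_add_neg]; exact h.add h'.neg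

theorem Hi.smul (h : Hi FV n f) (c : ZMod p) : Hi FV n (c • f) := fun a ha =>
  h a fun h0 => ha (by rw [map_smul, h0, smul_zero])

omit hp in
theorem eq_single_of_sum {a : V → ℕ} [DecidableEq V] (h : ∑ v, a v = 1) :
    ∃ v, a = Pi.single v 1 := by
  obtain ⟨v, -, hv⟩ := exists_ne_zero_of_sum_ne_zero (s := univ) (f := a) (by omega)
  have hs := add_sum_erase univ a (mem_univ v)
  have h0 : ∑ x ∈ univ.erase v, a x = 0 := by omega
  refine ⟨v, funext fun x => ?_⟩
  by_cases hx : x = v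
  · subst hx; simp; omega
  · rw [Pi.single_eq_of_ne hx]
    exact sum_eq_zero_iff.1 h0 x (by simp [hx])

/-- linear hypotheses suffice when all weights are at least `N` and `n < 2 N` -/
theorem hi_of_lin {N : ℕ} (hN : ∀ v, N ≤ FV v) (hn : n < 2 * N)
    (hf : f ∈ (mx : Ideal (O p (ZMod p) V))) (h : ∀ v, FV v ≤ n → lin v f = 0) : Hi FV n f := by
  classical
  intro a ha
  have h1 : (∑ v, a v) * N ≤ ∑ v, a v * FV v := by
    rw [sum_mul]; exact sum_le_sum fun v _ => Nat.mul_le_mul_left _ (hN v)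
  by_cases h2 : 2 ≤ ∑ v, a v
  · exact hn.trans_le ((Nat.mul_le_mul_right _ h2).trans h1)
  by_cases h3 : ∑ v, a v = 0
  · exact absurd (cf_eq_zero_of_mem_pow (n := 1) (by simpa using hf) (by omega)) ha
  obtain ⟨v, rfl⟩ := eq_single_of_sum (a := a) (by omega)
  rw [← lin_eq_cf] at ha
  have : ∑ x, (Pi.single v 1 : V → ℕ) x * FV x = FV v := by
    rw [sum_eq_single v] <;> simp +contextual [Pi.single_eq_of_ne]
  rw [this]
  exact lt_of_not_ge fun h' => ha (h v h')

theorem cf_mul_ne [DecidableEq V] {a : V → ℕ} (h : cf a (f * g) ≠ 0) :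
    ∃ b c, cf b f ≠ 0 ∧ cf c g ≠ 0 ∧ b + c = a := by
  by_contra hc
  push Not at hc
  apply h
  rw [← sum_cf f, ← sum_cf g, sum_mul_sum, map_sum]
  refine sum_eq_zero fun b _ => ?_
  rw [map_sum]
  refine sum_eq_zero fun c _ => ?_
  rw [smul_mul_smul_comm, ← zm_add, map_smul, cf_zm]
  by_cases h1 : cf b f = 0
  · simp [h1]
  by_cases h2 : cf c g = 0
  · simp [h2]
  rw [if_neg fun h => hc b c h1 h2 h.1.symm, smul_zero]

/-- the functions all of whose monomials have weight at least `n` -/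
def Ge (FV : V → ℕ) (n : ℕ) : Ideal (O p (ZMod p) V) where
  carrier := {f | ∀ a : V → ℕ, cf a f ≠ 0 → n ≤ ∑ v, a v * FV v}
  zero_mem' := fun a ha => by simp at ha
  add_mem' := fun {f g} h h' a ha => by
    by_cases h1 : cf a f = 0
    · exact h' a (by simpa [h1] using ha)
    · exact h a h1
  smul_mem' := fun c f h a ha => by
    classical
    obtain ⟨b, c, -, h2, rfl⟩ := cf_mul_ne ha
    refine (h c h2).trans (sum_le_sum fun v _ => Nat.mul_le_mul_right _ ?_)
    simp

theorem mem_Ge : f ∈ Ge FV n ↔ ∀ a : V → ℕ, cf a f ≠ 0 → n ≤ ∑ v, a v * FV v := Iff.rfl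

theorem hi_iff : Hi FV n f ↔ f ∈ Ge FV (n + 1) := Iff.rfl

theorem Ge_mul {m : ℕ} : (Ge FV n : Ideal (O p (ZMod p) V)) * Ge FV m ≤ Ge FV (n + m) := by
  classical
  refine Ideal.mul_le.2 fun f hf g hg a ha => ?_
  obtain ⟨b, c, h1, h2, rfl⟩ := cf_mul_ne ha
  simp only [Pi.add_apply, add_mul, sum_add_distrib]
  exact add_le_add (hf b h1) (hg c h2)

theorem Ge_pow (k : ℕ) : (Ge FV n : Ideal (O p (ZMod p) V)) ^ k ≤ Ge FV (k * n) := by
  induction k with
  | zero => intro f _ a _; simp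
  | succ k ih => rw [pow_succ, add_mul, one_mul]; exact (Ideal.mul_mono_left ih).trans Ge_mul

theorem Ge_anti {m : ℕ} (h : m ≤ n) : (Ge FV n : Ideal (O p (ZMod p) V)) ≤ Ge FV m :=
  fun _ hf a ha => h.trans (hf a ha)

theorem zm_mem_Ge (a : V → ℕ) : (zm a : O p (ZMod p) V) ∈ Ge FV (∑ v, a v * FV v) := by
  classical
  intro b hb
  rw [cf_zm] at hb
  split_ifs at hb with h
  · rw [h.1]
  · exact absurd rfl hb

theorem z_mem_Ge (v : V) : (z v : O p (ZMod p) V) ∈ Ge FV (FV v) := by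
  classical
  have := zm_mem_Ge (p := p) (FV := FV) (Pi.single v 1)
  rwa [zm_single, pow_one, sum_eq_single v, Pi.single_eq_same, one_mul] at this <;>
    simp +contextual [Pi.single_eq_of_ne]

/-- weight preserving substitutions -/
theorem Ge_map {V' : Type} [Fintype V'] {FV' : V' → ℕ}
    (φ : O p (ZMod p) V →ₐ[ZMod p] O p (ZMod p) V') (h : ∀ v, φ (z v) ∈ Ge FV' (FV v))
    (hf : f ∈ Ge FV n) : φ f ∈ Ge FV' n := by
  classical
  rw [← sum_cf f, map_sum]
  refine sum_mem fun a _ => ?_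
  by_cases h0 : cf a f = 0
  · simp [h0]
  rw [map_smul, Algebra.smul_def]
  refine Ideal.mul_mem_left _ _ (Ge_anti (hf a h0) ?_)
  rw [map_zm]
  refine Finset.induction_on (motive := fun A => ∏ v ∈ A, φ (z v) ^ a v ∈
    Ge FV' (∑ v ∈ A, a v * FV v)) univ (fun b _ => by simp) fun v A hv ih => ?_
  rw [prod_insert hv, sum_insert hv]
  exact Ge_mul (Ideal.mul_mem_mul (Ge_pow _ (Ideal.pow_mem_pow (h v) _)) ih)

end Hi

section Lower
variable {s : Type} [Fintype s] [DecidableEq s]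





end Lower

end N255.Core
namespace N255.Core.Wall
end N255.Core.Wall
end

-- ▼ part N255/Core/Move
section

/-! Row 255, algebraic core: tests can be moved (`moveG_holds`). -/

set_option autoImplicit false

namespace N255.Core

open Finset N255.Dr N255.Dr.O LaurentPolynomial

section
variable {p : ℕ} [Fact p.Prime] {V : Type} [Fintype V]

theorem Hi.mem_mx {FV : V → ℕ} {n : ℕ} {f : O p (ZMod p) V} (h : Hi FV n f) : f ∈ mx := by
  rw [O.mem_mx, ← cf_zero]
  by_contra hne
  simpa using h 0 hne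

theorem Hi.le {FV : V → ℕ} {n : ℕ} {f : O p (ZMod p) V} (h : Hi FV n f) {wz : V → ℤ}
    (hz : ∀ v, (FV v : ℤ) ≤ wz v) {a : V → ℕ} (ha : cf a f ≠ 0) :
    (n : ℤ) + 1 ≤ ∑ v, a v • wz v := by
  have h1 : ((n + 1 : ℕ) : ℤ) ≤ ((∑ v, a v * FV v : ℕ) : ℤ) := Int.ofNat_le.2 (h a ha)
  push_cast at h1
  refine h1.trans (sum_le_sum fun v _ => ?_)
  rw [nsmul_eq_mul]
  exact mul_le_mul_of_nonneg_left (hz v) (by positivity)

theorem Hi.fn_mem {FV : V → ℕ} {n : ℕ} {f : O p (ZMod p) V} (h : Hi FV n f) (wu : ℤ)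
    {wz : V → ℤ} (wd : V → ℤ) (hz : ∀ v, (FV v : ℤ) ≤ wz v) :
    Om.fn (bc (Au p) f) ∈ Om.Fil (k := ZMod p) wu wz wd (n + 1) :=
  Om.fn_bc_mem fun a ha => by simpa [gw] using h.le hz ha

theorem Hi.d_mem [DecidableEq V] {FV : V → ℕ} {n : ℕ} {f : O p (ZMod p) V} (h : Hi FV n f)
    (wu : ℤ) {wz wd : V → ℤ} (hz : ∀ v, (FV v : ℤ) ≤ wz v) (hd : ∀ v, (FV v : ℤ) ≤ wd v) :
    Om.d (Om.fn (bc (Au p) f)) ∈ Om.Fil (k := ZMod p) wu wz wd (n + 1) := by
  have h1 := Om.Sw_d_self (h.fn_mem wu (wz := fun v => (FV v : ℤ)) (fun v => (FV v : ℤ))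
    fun _ => le_rfl)
  refine Om.Su_mono (fun j a S _ hx => hx.trans ?_) h1
  simp only [gw]
  refine add_le_add (add_le_add le_rfl (sum_le_sum fun v _ => ?_)) (sum_le_sum fun v _ => hd v)
  exact nsmul_le_nsmul_right (hz v) _

end

variable {p : ℕ} [hp : Fact p.Prime] {Γ : Type} [AddCommGroup Γ] {δ : Γ} {s s' : Type}
  [Fintype s] [DecidableEq s] [Fintype s'] [DecidableEq s']

namespace Wall
variable (w : Wall p Γ δ s) (N La : ℕ)

omit hp [DecidableEq s] in
theorem mem_nr {b : Bool} {i : s} :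
    i ∈ w.nr b ↔ w.kd i = some b ∨ (b = true ∧ w.kd i = none) := by simp [nr]











omit hp in
theorem le_of_lt {b : Bool} {al : s} {x : Ix s} (h : w.Lt N La b al x) :
    w.wW N La (w.ld b al) ≤ w.wW N La x := by
  unfold Lt at h
  split_ifs at h
  · exact h.1
  · exact h.le

end Wall

namespace Mv
variable {w : Wall p Γ δ s} {w' : Wall p Γ δ s'} {N La : ℕ} {b : Bool} (m : Mv w w' N La b)

/-- transport of monomials without far factors -/
def tr (x : Ix s) : Ix s' := (x.1, Om.push m.e x.2.1, x.2.2.image m.e)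















/-- the substitution over the Laurent ring -/
noncomputable def ph : O p (Au p) s →ₐ[Au p] O p (Au p) s' := bcH (Au p) m.io

/-- its leading part -/
noncomputable def ps : O p (Au p) s →ₐ[Au p] O p (Au p) s' :=
  lift (fun i => if w.kd i = some (!b) then 0 else z (m.e i)) fun i => by
    split_ifs
    · exact zero_pow hp.out.ne_zero
    · exact z_pow _







end Mv


end N255.Core
end

-- ▼ part N255/Ts/Dich
section

/-!
# Row 255, core (helper22): the dichotomy `DichS`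
-/

set_option autoImplicit false

namespace N255.Ts

open Finset Module LaurentPolynomial N255.Dr N255.Dr.Om

section Gen
variable {p : ℕ} {k : Type} [Field k] {σ : Type} [Fintype σ] [DecidableEq σ]

/-- the residue pairing -/
noncomputable def Bp (p : ℕ) (k : Type) [Field k] (σ : Type) [Fintype σ] :
    Om p (LA k) σ →ₗ[k] Om p (LA k) σ →ₗ[k] k :=
  (LinearMap.mul k (Om p (LA k) σ)).compr₂
    (cT (-1) ∘ₗ (int : Om p (LA k) σ →ₗ[LA k] LA k).restrictScalars k)

omit [DecidableEq σ] in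
theorem Bp_apply (a b : Om p (LA k) σ) : Bp p k σ a b = cT (-1) (int (a * b)) := rfl

/-- the complementary monomial -/
def cx (x : Ix p σ) : Ix p σ := (-1 - x.1, fun i => (x.2.1 i).rev, x.2.2ᶜ)

theorem cx_cx (x : Ix p σ) : cx (cx x) = x := by
  obtain ⟨j, a, S⟩ := x
  simp [cx]

theorem pf_Bp [hp : Fact p.Prime] : Pf (ub : Basis (Ix p σ) k (Om p (LA k) σ)) (Bp p k σ) cx := by
  refine ⟨cx_cx, fun x => ?_, fun x y hy => ?_⟩
  · rw [Bp_apply, ub_apply, ub_apply, int_mu_mul, if_pos, map_zsmul, cT_T, if_pos (by simp [cx])]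
    · intro h
      have := sg_compl_sq (K := k) x.2.2
      rw [zsmul_eq_mul, mul_one] at h
      rw [h, mul_zero] at this
      exact zero_ne_one this
    · refine ⟨funext fun i => ?_, rfl⟩
      have := (x.2.1 i).2
      simp only [cx, Pi.add_apply, Fin.val_rev, top]
      omega
  · rw [Bp_apply, ub_apply, ub_apply, int_mu_mul]
    split_ifs with h
    · rw [map_zsmul, cT_T, if_neg, smul_zero]
      intro h1
      refine hy (Prod.ext (by simp only [cx]; omega) (Prod.ext (funext fun i => Fin.ext ?_) h.2))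
      have := congrFun h.1 i
      simp only [cx, Pi.add_apply, Fin.val_rev, top] at this ⊢
      omega
    · rw [map_zero]

/-- the exponential lies in every multiplicatively closed span containing the exponent -/
theorem E_mem_Su [Fact p.Prime] [Fact ((p : k) = 0)] {P : ℤ → (σ → ℕ) → Finset σ → Prop}
    (h1 : P 0 0 ∅) (hm : ∀ j a j' a', P j a ∅ → P j' a' ∅ → P (j + j') (a + a') ∅)
    {X : O p (LA k) σ} (h2 : X ∈ (O.mx : Ideal (O p (LA k) σ)) ^ 2) (hX : fn X ∈ Su P) :
    fn (O.E X) ∈ Su P := by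
  have e1 : ∀ {f : O p (LA k) σ}, fn f ∈ Su P → fn f ∈ Su fun j a S => P j a S ∧ S = ∅ :=
    fun h => fn_mem_Su.2 fun j a hne => ⟨fn_mem_Su.1 h j a hne, rfl⟩
  let A : Subsemiring (O p (LA k) σ) :=
    { carrier := {f | fn f ∈ Su P}
      zero_mem' := by simp
      one_mem' := by
        change fn 1 ∈ Su P
        rw [fn, map_one, ← mu_one]; exact mu_mem fun _ => h1
      add_mem' := fun ha hb => by
        change fn _ ∈ Su P
        rw [fn, map_add]; exact add_mem ha hb
      mul_mem' := fun ha hb => by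
        change fn _ ∈ Su P
        rw [fn, map_mul]
        refine Su_mul ?_ (e1 ha) (e1 hb)
        rintro j a S j' a' S' ⟨h3, rfl⟩ ⟨h4, rfl⟩ - -
        simpa using hm _ _ _ _ h3 h4 }
  have e2 : ∀ a : σ → ℕ, O.cf a X • (O.zm a : O p (LA k) σ) ∈ (O.mx : Ideal _) ^ 2 := fun a => by
    by_cases ha : ∑ i, a i < 2
    · rw [O.cf_eq_zero_of_mem_pow h2 ha, zero_smul]; exact zero_mem _
    · rw [Algebra.smul_def]
      exact Ideal.mul_mem_left _ _ (Ideal.pow_le_pow_right (not_lt.1 ha) (O.zm_mem_pow a))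
  change O.E X ∈ A
  rw [← O.sum_cf X, O.E_sum _ _ fun a _ => e2 a]
  refine prod_mem fun a _ => ?_
  by_cases ha : ∑ i, a i < 2
  · rw [O.cf_eq_zero_of_mem_pow h2 ha, zero_smul, O.E_zero]; exact one_mem _
  · rw [O.E_monomial _ (not_lt.1 ha)]
    refine tx_mem A p (fn_mem_Su.2 fun j b hne => ?_)
    rw [map_smul, O.cf_zm] at hne
    split_ifs at hne with h
    · obtain ⟨rfl, -⟩ := h
      exact fn_mem_Su.1 hX j _ (by simpa using hne)
    · simp at hne

omit [DecidableEq σ] in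
theorem exists_low (ω : Om p (LA k) σ) : ∃ N : ℤ, ω ∈ Su fun j _ _ => -N ≤ j := by
  obtain ⟨a, ha⟩ := ((ub.repr ω).support.finite_toSet.image fun y => y.1).bddBelow
  exact ⟨-a, mem_Sp.2 fun x hx => by_contra fun h0 =>
    hx (by simpa using ha ⟨x, Finsupp.mem_support_iff.2 h0, rfl⟩)⟩

variable {Γ : Type} [AddCommGroup Γ]

/-- the degree of a monomial -/
def dg (δ : Γ) (deg : σ → Γ) (j : ℤ) (a : σ → ℕ) (S : Finset σ) : Γ :=
  j • δ + ∑ i, a i • deg i + ∑ i ∈ S, deg i

theorem dg_add (δ : Γ) (deg : σ → Γ) (j j' : ℤ) (a a' : σ → ℕ) {S S' : Finset σ}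
    (h : Disjoint S S') :
    dg δ deg (j + j') (a + a') (S ∪ S') = dg δ deg j a S + dg δ deg j' a' S' := by
  simp only [dg, add_smul, Pi.add_apply, sum_add_distrib, sum_union h]
  abel

theorem sum_sub_single {M : Type*} [AddCommGroup M] (f : σ → M) {a : σ → ℕ} {i : σ}
    (h : 0 < a i) : ∑ j, (a - Pi.single i 1 : σ → ℕ) j • f j = ∑ j, a j • f j - f i := by
  have h1 : a = (a - Pi.single i 1) + Pi.single i 1 := by
    funext j
    by_cases hj : j = i
    · subst hj; simp; omega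
    · simp [Pi.single_eq_of_ne hj]
  conv_rhs => rw [h1]
  simp only [Pi.add_apply, add_smul, sum_add_distrib]
  rw [Finset.sum_eq_single i (f := fun j => (Pi.single i 1 : σ → ℕ) j • f j)
    (fun j _ hj => by simp [Pi.single_eq_of_ne hj]) (by simp)]
  simp

theorem dg_d (δ : Γ) (deg : σ → Γ) (j : ℤ) {a : σ → ℕ} {S : Finset σ} {i : σ} (h : 0 < a i)
    (hi : i ∉ S) : dg δ deg j (a - Pi.single i 1) (insert i S) = dg δ deg j a S := by
  simp only [dg, sum_sub_single deg h, sum_insert hi]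
  abel

omit [DecidableEq σ] in
theorem pu_comm {P : ℤ → (σ → ℕ) → Finset σ → Prop} {f : Om p (LA k) σ →ₗ[k] Om p (LA k) σ}
    (h1 : ∀ ω ∈ Su P, f ω ∈ Su P)
    (h2 : ∀ ω ∈ Su fun j a S => ¬ P j a S, f ω ∈ Su fun j a S => ¬ P j a S) (ω : Om p (LA k) σ) :
    pu P (f ω) = f (pu P ω) :=
  pr_comm (fun _ hx => h1 _ (basis_mem_Sp hx)) (fun _ hx => h2 _ (basis_mem_Sp hx)) ω

theorem int_inv {K : Type} [CommRing K] [Fact p.Prime] (ω : Om p K σ) :
    int (inv ω) = (-1 : ℤ) ^ Fintype.card σ • int ω := by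
  induction ω using ind_mon with
  | h0 => simp
  | hadd a b ha hb => simp only [map_add, ha, hb, smul_add]
  | hm c a S ha =>
    rw [inv_smul, map_smul, map_smul, smul_comm, inv_mon, map_zsmul, int_mon]
    split_ifs with h
    · rw [h.2, card_univ]
    · simp


end Gen

section Wall
open N255.Core

variable {p : ℕ} [hp : Fact p.Prime] {s : Type} [Fintype s] [DecidableEq s]

/-- forget the bounds -/
def ix (x : Dr.Ix p s) : Core.Ix s := (x.1, fun i => (x.2.1 i : ℕ), x.2.2)

omit hp [Fintype s] [DecidableEq s] in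
theorem ix_inj {x y : Dr.Ix p s} (h : ix x = ix y) : x = y := by
  obtain ⟨h1, h2⟩ := Prod.ext_iff.1 h
  obtain ⟨h2, h3⟩ := Prod.ext_iff.1 h2
  exact Prod.ext h1 (Prod.ext (funext fun i => Fin.ext (congrFun h2 i)) h3)

omit [DecidableEq s] in
theorem In_of_Sp {P : Core.Ix s → Prop} {T : Set (Dr.Ix p s)} (h : ∀ x ∈ T, P (ix x))
    {ω : Om p (LA (ZMod p)) s} (hω : ω ∈ Sp ub T) : In P ω := by
  have h1 : ω ∈ Su fun j a S => P (j, a, S) := by
    rw [Su]
    exact Sp_mono h hω
  intro x hx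
  refine mem_Su.1 h1 x.1 x.2.1 x.2.2 ?_
  rw [cu_apply, cT_apply]
  exact hx

omit [DecidableEq s] in
theorem ub_eq (x : Dr.Ix p s) : (ub x : Om p (LA (ZMod p)) s) = Core.mu (ix x) := ub_apply x

omit hp in
theorem wt_cx (wu : ℤ) (wz wd : s → ℤ) (x : Dr.Ix p s) :
    wt wu wz wd (ix (cx x)) + wt wu wz wd (ix x) = -wu + ∑ i, ((p : ℤ) - 1) * wz i + ∑ i, wd i := by
  have h1 : ∑ i, (((x.2.1 i).rev : ℕ) : ℤ) * wz i + ∑ i, ((x.2.1 i : ℕ) : ℤ) * wz i
      = ∑ i, ((p : ℤ) - 1) * wz i := by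
    rw [← sum_add_distrib]
    refine sum_congr rfl fun i _ => ?_
    have := (x.2.1 i).2
    rw [← add_mul, Fin.val_rev]
    congr 1
    omega
  have h2 := sum_compl_add_sum x.2.2 wd
  simp only [wt, ix, cx]
  linear_combination h1 + h2

variable {Γ : Type} [AddCommGroup Γ] {δ : Γ} (w : Wall p Γ δ s)

omit hp in
theorem nr_compl : (w.nr true)ᶜ = w.nr false := by
  ext i
  simp only [Wall.nr, mem_compl, mem_filter, mem_univ, true_and]
  rcases w.kd i with _ | _ | _ <;> simp

omit hp in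
theorem mem_nr_false {i : s} : i ∈ w.nr false ↔ i ∉ w.nr true := by
  rw [← nr_compl, mem_compl]

theorem cx_h0 {y : Dr.Ix p s} : ix (cx y) = w.h0 true (cx y).1 ↔ ix y = w.h0 false y.1 := by
  have h2 := hp.out.two_le
  simp only [ix, cx, Wall.h0, Prod.mk.injEq, true_and, funext_iff, Fin.val_rev, mem_nr_false]
  refine and_congr (forall_congr' fun i => ?_) ?_
  · have := (y.2.1 i).2
    split_ifs <;> omega
  · rw [← nr_compl, compl_eq_comm, eq_comm]

/-- the bounded form of `h0` -/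
def h0' (b : Bool) : Dr.Ix p s :=
  (0, fun i => ⟨if i ∈ w.nr b then p - 1 else 0, by
    have := hp.out.two_le
    split_ifs <;> omega⟩, w.nr b)

/-- the bounded form of `ld true` -/
def ld' (al : s) : Dr.Ix p s :=
  (0, fun i => ⟨if i = al then p - 2 else if i ∈ w.nr true then p - 1 else 0, by
    have := hp.out.two_le
    split_ifs <;> omega⟩, w.nr true)

theorem ix_h0' (b : Bool) : ix (h0' w b) = w.h0 b 0 := rfl

theorem ix_ld' (al : s) : ix (ld' w al) = w.ld true al := rfl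

theorem ix_cx_h0' : ix (cx (h0' w false)) = w.h0 true (-1) := (cx_h0 w).2 rfl

theorem ix_cx_ld' (al : s) : ix (cx (ld' w al)) = w.ld false al := by
  have h2 := hp.out.two_le
  simp only [ix, cx, ld', Wall.ld, Prod.mk.injEq, funext_iff, Fin.val_rev, mem_nr_false, nr_compl,
    and_true]
  refine ⟨by simp, fun i => ?_⟩
  simp only [Bool.false_eq_true, if_false]
  split_ifs <;> omega

theorem dg_ld (al : s) (hal : w.kd al = none) :
    dg δ w.deg 0 (w.ld true al).2.1 (w.nr true) + w.deg al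
      = dg δ w.deg 0 (w.h0 true 0).2.1 (w.nr true) := by
  have h2 := hp.out.two_le
  have hm : al ∈ w.nr true := by simp [Wall.nr, hal]
  have : (w.ld true al).2.1 = (w.h0 true 0).2.1 - Pi.single al 1 := by
    funext i
    by_cases hi : i = al
    · subst hi
      simp only [Wall.ld, Wall.h0, if_true, Pi.sub_apply, Pi.single_eq_same, if_pos hm]
      omega
    · simp [Wall.ld, Wall.h0, hi]
  rw [this, dg, dg, sum_sub_single w.deg (by simp only [Wall.h0, if_pos hm]; omega)]
  abel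


omit hp [DecidableEq s] in
theorem le_wW {N La : ℕ} (h : 0 < La) (x : Core.Ix s) (hx : 0 ≤ x.1) : x.1 ≤ w.wW N La x := by
  have a1 : (0 : ℤ) ≤ ∑ i, ((x.2.1 i : ℕ) : ℤ) * (if w.kd i = none then (La : ℤ) else N + w.F i) :=
    sum_nonneg fun i _ => mul_nonneg (by positivity) (by split_ifs <;> positivity)
  have a2 : (0 : ℤ) ≤ ∑ i ∈ x.2.2, ((N : ℤ) + w.F i) := sum_nonneg fun i _ => by positivity
  simp only [Wall.wW, wt]
  nlinarith

end Wall


end N255.Ts
end

-- ▼ part N255/Ts/DichG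
section

/-!
# Row 255, core (helper22): the dichotomy for arbitrary weights `DichG`
-/

set_option autoImplicit false

namespace N255.Ts

section Abs
open Module

variable {k V : Type*} [Field k] [AddCommGroup V] [Module k V]

/-- **abstract dichotomy, true form** (closed vectors of `Sp S` allowed, graded projection) -/
theorem dich3 {M : Type*} [Finite M] {e : Basis (ℤ × M) k V} {B : V →ₗ[k] V →ₗ[k] k}
    {c : ℤ × M → ℤ × M} (hB : Pf e B c) (d E E' σ : V →ₗ[k] V) (N J J0 : ℤ)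
    (hσ : Function.Surjective σ) (hd : ∀ z v, B (d z) v = -B (σ z) (d v))
    (hd' : ∀ w, ∃ w', ∀ z, B (d z) w = B z (d w')) (dd : ∀ z, d (d z) = 0)
    (hE : ∀ z v, B (E z) v = B z (E v)) (hE' : ∀ z, E' (E z) = z)
    (d1 : ∀ n : ℤ, ∀ x, d (e (n, x)) ∈ Sp e {y | y.1 = n})
    (E1 : ∀ n : ℤ, ∀ x, E (e (n, x)) ∈ Sp e {y | n - N ≤ y.1})
    (E2 : ∀ n : ℤ, ∀ x, E' (e (n, x)) ∈ Sp e {y | n - N ≤ y.1})
    (G : Set (ℤ × M)) (Gd : ∀ v, pr e G (d v) = d (pr e G v))
    (GE : ∀ v, pr e G (E' v) = E' (pr e G v)) (S T : Set (ℤ × M))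
    (T0 : ∀ x ∈ T, -J0 ≤ x.1) (TJ : ∀ x : ℤ × M, J ≤ x.1 → x ∈ T) (t : ℤ × M)
    (ht : t.1 < J) (tG : t ∈ G) :
    (∃ z s, s ∈ Sp e S ∧ d s = 0 ∧ E' (d z + s) - e t ∈ Sp e ((G ∩ T) \ {t})) ∨
      ∃ z s, s ∈ Sp e {y | c y ∉ S} ∧ d s = 0 ∧
        E (d z + s) - e (c t) ∈ Sp e {y | c y ∉ T} := by
  by_cases h : ∃ z s, s ∈ Sp e S ∧ d s = 0 ∧ E' (d z + s) ∈ Sp e T ∧
      e.repr (E' (d z + s)) t ≠ 0
  · obtain ⟨z, s, h1, h2, h3, h4⟩ := h
    set a := (e.repr (E' (d z + s)) t)⁻¹ with ha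
    refine Or.inl ⟨pr e G (a • z), pr e G (a • s),
      Sp_mono Set.inter_subset_right (pr_mem_inter (Submodule.smul_mem _ a h1)),
      by rw [← Gd, map_smul, h2, smul_zero, map_zero], mem_Sp.2 fun x hx => ?_⟩
    rw [← Gd, ← map_add, ← GE, map_smul, ← smul_add, map_smul, map_sub, Finsupp.sub_apply,
      repr_pr, map_smul, Finsupp.smul_apply, smul_eq_mul, Basis.repr_self]
    by_cases hxt : x = t
    · subst hxt
      rw [if_pos tG, ha, inv_mul_cancel₀ h4, Finsupp.single_eq_same, sub_self]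
    · rw [Finsupp.single_eq_of_ne hxt, sub_zero]
      split_ifs with hG
      · rw [mem_Sp.1 h3 x fun hT => hx ⟨⟨hG, hT⟩, hxt⟩, mul_zero]
      · rfl
  refine Or.inr ?_
  push Not at h
  obtain ⟨f, f1, f2⟩ := exists_ext (Sp e T)
    ((LinearMap.range d ⊔ (Sp e S ⊓ LinearMap.ker d)).map E') (B.flip (e (c t))) (by
    rintro _ hv ⟨w, hw, rfl⟩
    obtain ⟨_, ⟨z, rfl⟩, s, hs, rfl⟩ := Submodule.mem_sup.1 hw
    rw [LinearMap.flip_apply, hB.left, h z s hs.1 hs.2 hv, mul_zero])
  have f3 : ∀ v ∈ Sp e {y : ℤ × M | J ≤ y.1}, f v = 0 := fun v hv => by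
    rw [f1 v (Sp_mono (fun y hy => TJ y hy) hv), LinearMap.flip_apply, hB.left,
      mem_Sp.1 hv t (not_le.2 ht), mul_zero]
  obtain ⟨v, hv⟩ := hB.rep (f ∘ₗ E' ∘ₗ pr e {y | -(N + J0) ≤ y.1}) (by
    refine ((Set.finite_Icc (-(N + J0)) (J + N)).prod (Set.finite_univ (α := M))).subset ?_
    rintro ⟨n, x⟩ hx
    simp only [Set.mem_ofPred_eq, LinearMap.comp_apply, pr_basis] at hx
    refine ⟨⟨by_contra fun h0 => hx (by rw [if_neg h0, map_zero, map_zero]), ?_⟩, trivial⟩
    by_contra h0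
    refine hx ?_
    split_ifs
    · exact f3 _ (Sp_mono (fun y hy => by
        simp only [Set.mem_ofPred_eq, not_le] at hy h0 ⊢; omega) (E2 n x))
    · rw [map_zero, map_zero])
  have hv0 : d v = 0 := hB.nondeg fun z => by
    obtain ⟨z, rfl⟩ := hσ z
    rw [← neg_eq_zero, ← hd, hv, LinearMap.comp_apply, LinearMap.comp_apply,
      pr_deg d1 fun j => -(N + J0) ≤ j]
    exact f2 _ ⟨_, Submodule.mem_sup_left ⟨_, rfl⟩, rfl⟩
  obtain ⟨z, s, hs, rfl⟩ := perp_split hB d hd' d1 S (v := v) fun w h1 h2 => by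
    rw [hv, LinearMap.comp_apply, LinearMap.comp_apply]
    refine f2 _ ⟨_, Submodule.mem_sup_right
      ⟨Sp_mono Set.inter_subset_right (pr_mem_inter h1), ?_⟩, rfl⟩
    change d _ = 0
    rw [← pr_deg d1 fun j => -(N + J0) ≤ j, h2, map_zero]
  refine ⟨z, s, hs, by rwa [map_add, dd, zero_add] at hv0, hB.perp fun x hx => ?_⟩
  rw [map_sub, ← hE, hv, LinearMap.comp_apply, LinearMap.comp_apply,
    pr_of_mem (Sp_mono (fun y hy => ?_) (E1 x.1 x.2)), hE', f1 _ (basis_mem_Sp hx),
    LinearMap.flip_apply, sub_self]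
  have := T0 x hx
  simp only [Set.mem_ofPred_eq] at hy ⊢
  omega

end Abs

open Finset Module LaurentPolynomial N255.Dr N255.Dr.Om

section Gen
variable {p : ℕ} {k : Type} [Field k] {σ : Type} [Fintype σ] [DecidableEq σ]
  {Γ : Type} [AddCommGroup Γ]

/-- the dichotomy on forms -/
theorem dich_om3 [Fact p.Prime] [Fact ((p : k) = 0)] (δ : Γ) (deg : σ → Γ) (X X' : O p (LA k) σ)
    (hX : X' * X = 1) (hX' : fn X' ∈ Su fun j a S => dg δ deg j a S = 0)
    (S T : Set (Ix p σ)) (J J0 : ℤ) (T0 : ∀ x ∈ T, -J0 ≤ x.1) (TJ : ∀ x : Ix p σ, J ≤ x.1 → x ∈ T)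
    (t : Ix p σ) (ht : t.1 < J) :
    (∃ z s : Om p (LA k) σ, s ∈ Sp ub S ∧ d s = 0 ∧ X' • (d z + s) - ub t ∈
      Sp ub (({x : Ix p σ | dg δ deg x.1 (fun i => (x.2.1 i : ℕ)) x.2.2 =
        dg δ deg t.1 (fun i => (t.2.1 i : ℕ)) t.2.2} ∩ T) \ {t})) ∨
      ∃ z s : Om p (LA k) σ, s ∈ Sp ub {y | cx y ∉ S} ∧ d s = 0 ∧
        X • (d z + s) - ub (cx t) ∈ Sp ub {y | cx y ∉ T} := by
  obtain ⟨N, hN⟩ := exists_low (fn X)
  obtain ⟨N', hN'⟩ := exists_low (fn X')
  have low : ∀ (Y : O p (LA k) σ) (M : ℤ), fn Y ∈ Su (fun j _ _ => -M ≤ j) → M ≤ max N N' →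
      ∀ (n : ℤ) (x : (σ → Fin p) × Finset σ), LinearMap.mulLeft k (fn Y) (ub (n, x)) ∈
        Sp ub {y : Ix p σ | n - max N N' ≤ y.1} := fun Y M hY hM n x =>
    Su_mul (Q := fun j _ _ => j = n) (R := fun j _ _ => n - max N N' ≤ j)
      (fun j a S j' a' S' h1 h2 _ _ => by omega) hY (basis_mem_Sp (x := (n, x)) rfl)
  have := dich3 (e := (ub : Basis (Ix p σ) k (Om p (LA k) σ))) pf_Bp
    ((d : Om p (LA k) σ →ₗ[LA k] _).restrictScalars k) (LinearMap.mulLeft k (fn X))
    (LinearMap.mulLeft k (fn X'))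
    ((inv.toLinearMap : Om p (LA k) σ →ₗ[O p (LA k) σ] _).restrictScalars k) (max N N') J J0
    (fun z => ⟨inv z, inv_inv z⟩)
    (fun z v => by
      change cT _ (int (d z * v)) = -cT _ (int (inv z * d v))
      rw [int_d_mul, map_neg])
    (fun w => ⟨(-1 : ℤ) ^ Fintype.card σ • inv w, fun z => by
      change cT _ (int (d z * w)) = cT _ (int (z * d ((-1 : ℤ) ^ Fintype.card σ • inv w)))
      rw [int_d_mul, map_zsmul, mul_smul_comm, map_zsmul, ← int_inv, map_mul inv, inv_d,
        Om.inv_inv,        mul_neg, map_neg int]⟩)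
    (fun z => d_d z)
    (fun z v => by
      change cT _ (int (fn X * z * v)) = cT _ (int (z * (fn X * v)))
      rw [← comm_of_even (inv_fn X), mul_assoc])
    (fun z => by
      change fn X' * (fn X * z) = z
      rw [← mul_assoc, ← map_mul, hX, map_one, one_mul])
    (fun n x => Su_d (P := fun j _ _ => j = n) (Q := fun j _ _ => j = n)
      (fun j a S i h _ _ => h) (basis_mem_Sp (x := (n, x)) rfl))
    (low X N hN (le_max_left _ _)) (low X' N' hN' (le_max_right _ _))
    {x : Ix p σ | dg δ deg x.1 (fun i => (x.2.1 i : ℕ)) x.2.2 =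
        dg δ deg t.1 (fun i => (t.2.1 i : ℕ)) t.2.2}
    (pu_comm (P := fun j a S => dg δ deg j a S = _)
      (fun ω h => Su_d (fun j a S i h1 h2 h3 => by rw [dg_d δ deg j h2 h3, h1]) h)
      (fun ω h => Su_d (fun j a S i h1 h2 h3 => by rwa [dg_d δ deg j h2 h3]) h))
    (pu_comm (P := fun j a S => dg δ deg j a S = _)
      (fun ω h => Su_mul (fun j a S j' a' S' h1 h2 h3 _ => by
        rw [dg_add δ deg j j' a a' h3, h1, h2, zero_add]) hX' h)
      (fun ω h => Su_mul (fun j a S j' a' S' h1 h2 h3 _ => by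
        rwa [dg_add δ deg j j' a a' h3, h1, zero_add]) hX' h))
    S T T0 TJ t ht rfl
  simpa only [LinearMap.mulLeft_apply, fn_mul, LinearMap.coe_restrictScalars] using this

end Gen

open N255.Core in
theorem wW_low {p : ℕ} {s : Type} [Fintype s] {Γ : Type} [AddCommGroup Γ] {δ : Γ}
    (w : Wall p Γ δ s) {N La : ℕ} (h : 0 < La) (n : ℤ) :
    ∃ J0 : ℤ, ∀ x : Dr.Ix p s, n ≤ w.wW N La (ix x) → -J0 ≤ x.1 := by
  obtain ⟨C, hC⟩ := (Set.finite_range fun y : (s → Fin p) × Finset s =>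
    w.wW N La (ix (0, y))).bddAbove
  refine ⟨|C - n|, fun x hx => ?_⟩
  have h1 : w.wW N La (ix (0, x.2)) ≤ C := hC ⟨x.2, rfl⟩
  have h2 : w.wW N La (ix x) = 2 * La * x.1 + w.wW N La (ix (0, x.2)) := by
    simp only [Wall.wW, wt, ix]; ring
  have h3 := le_abs_self (C - n)
  have h4 := abs_nonneg (C - n)
  by_contra h5
  nlinarith

open N255.Core in
/-- **the dichotomy** -/
theorem dichG_holds : DichG := by
  intro p hp Γ _ δ s _ _ w N La hLa al hal
  obtain ⟨J0, hJ0⟩ := wW_low w (N := N) hLa (w.wW N La (w.ld true al))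
  have hW : ∀ c : LA (ZMod p), c • O.bc (LA (ZMod p)) w.W ∈ (O.mx : Ideal _) ^ 2 := fun c => by
    rw [Algebra.smul_def]; exact Ideal.mul_mem_left _ _ (O.bc_mem_pow _ w.W2)
  have hE : w.Eu true * w.Eu false = 1 := by
    simp only [Wall.Eu, if_true, Bool.false_eq_true, if_false, neg_smul]
    exact O.E_neg_mul (hW _)
  have hG : fn (w.Eu true) ∈ Su fun j a S => dg δ w.deg j a S = 0 := by
    refine E_mem_Su (by simp [dg]) (fun j a j' a' h1 h2 => ?_) (hW _) ?_
    · have := dg_add δ w.deg j j' a a' (disjoint_empty_left (∅ : Finset s))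
      rwa [h1, h2, add_zero, union_empty] at this
    · rw [if_pos rfl, neg_smul, fn, map_neg, ← fn, fn_smul]
      refine neg_mem (Su_T (P := fun j a S => dg δ w.deg j a S = δ) (-1) (fun j a S h1 => ?_)
        (fn_bc_mem fun a ha => by simpa [dg] using w.hom a ha))
      simp only [dg, add_smul] at h1 ⊢
      rw [add_assoc, add_assoc, ← add_assoc (j • δ), h1, neg_one_smul, neg_add_cancel]
  rcases dich_om3 δ w.deg (w.Eu false) (w.Eu true) hE hG {x | w.Hm N true (ix x)}
    {x | w.wW N La (w.ld true al) ≤ w.wW N La (ix x)} (|w.wW N La (w.ld true al)| + 1) J0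
    (fun x hx => hJ0 x hx)
    (fun x hx => by
      have h1 := le_abs_self (w.wW N La (w.ld true al))
      have h2 := abs_nonneg (w.wW N La (w.ld true al))
      have h3 : x.1 ≤ _ := le_wW w (N := N) hLa (ix x) (by change 0 ≤ x.1; omega)
      simp only [Set.mem_ofPred_eq]
      omega)
    (ld' w al) (by have := abs_nonneg (w.wW N La (w.ld true al)); change 0 < _; omega) with
    ⟨z, u, h1, h2, h3⟩ | ⟨z, u, h1, h2, h3⟩
  · refine Or.inl ⟨z, u, h2, In_of_Sp (fun x hx => hx) h1, In_of_Sp ?_ (by rwa [ub_eq] at h3)⟩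
    rintro x ⟨⟨g1, g2⟩, g3⟩
    refine (if_pos rfl).mpr ⟨g2, fun be hbe e => g3 ?_⟩
    obtain rfl : x = ld' w be := ix_inj e
    have e1 := dg_ld w be hbe
    rw [← dg_ld w al hal] at e1
    have e2 : w.deg be = w.deg al := add_left_cancel ((congrArg (· + w.deg be) g1).symm.trans e1)
    rw [w.inj be al hbe hal e2]
    rfl
  · refine Or.inr ⟨z, u, h2, In_of_Sp (fun y hy => ?_) h1,
      In_of_Sp (fun y hy => ?_) (by rwa [ub_eq, ix_cx_ld'] at h3)⟩
    · simp only [Set.mem_ofPred_eq, Wall.Hm, not_or, not_and, if_true] at hy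
      by_cases e : ix y = w.h0 false y.1
      · have := hy.1 ((cx_h0 w).2 e)
        refine Or.inl ⟨e, ?_⟩
        change ¬ 0 ≤ -1 - y.1 at this
        change 0 ≤ y.1
        omega
      · have e1 := hy.2 fun h' => e ((cx_h0 w).1 h')
        refine Or.inr ⟨e, (if_neg Bool.false_ne_true).mpr ?_⟩
        have e2 := wt_cx 0 (fun i => (N : ℤ) + w.F i) (fun i => (N : ℤ) + w.F i) y
        have e3 := wt_cx 0 (fun i => (N : ℤ) + w.F i) (fun i => (N : ℤ) + w.F i) (h0' w false)
        rw [ix_cx_h0', ix_h0'] at e3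
        have e4 : w.wF N (w.h0 true (-1)) = w.wF N (w.h0 true 0) := by simp [Wall.wF, wt, Wall.h0]
        simp only [Wall.wF] at e1 e4 ⊢
        omega
    · refine (if_neg Bool.false_ne_true).mpr ?_
      have e2 := wt_cx (2 * La) (fun i => if w.kd i = none then (La : ℤ) else N + w.F i)
        (fun i => (N : ℤ) + w.F i) y
      have e3 := wt_cx (2 * La) (fun i => if w.kd i = none then (La : ℤ) else N + w.F i)
        (fun i => (N : ℤ) + w.F i) (ld' w al)
      rw [ix_cx_ld', ix_ld'] at e3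
      simp only [Set.mem_ofPred_eq, Wall.wW, not_le] at hy ⊢
      omega

end N255.Ts
end

-- ▼ part N255/Core/CG

/-! Row 255, algebraic core: vertex identities with extra variables, `CoreG`. -/

set_option autoImplicit false

namespace N255.Core

open N255.Dr N255.Dr.O Finset

variable {p : ℕ} [hp : Fact p.Prime] {Γ : Type} [AddCommGroup Γ] {δ : Γ} {s : Fin 3 → Type}
  [∀ i, Fintype (s i)]

open Classical in
/-- the function weights of the main weight at a vertex -/
noncomputable def vw (w : ∀ i, Wall p Γ δ (s i)) (t : Fin 3 → Bool) (La : ℕ) {V : Type}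
    (em : (Σ i, s i) × Bool → V) (FV : V → ℕ) (v : V) : ℕ :=
  if ∃ i x, (w i).kd x = some (t i) ∧ v = em (⟨i, x⟩, false) then FV v else La

/-- A vertex identity with weights; variables outside `em '' Ok` are allowed. -/
structure VxE (w : ∀ i, Wall p Γ δ (s i)) (t : Fin 3 → Bool) (N La : ℕ) (V : Type)
    [Fintype V] where
  em : (Σ i, s i) × Bool → V
  inj : Set.InjOn em {q | Ok w t q}
  FV : V → ℕ
  hF : ∀ i x, Ok w t (⟨i, x⟩, false) → FV (em (⟨i, x⟩, false)) = N + (w i).F x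
  hm : ∀ i x, Ok w t (⟨i, x⟩, true) → 0 < FV (em (⟨i, x⟩, true)) ∧ FV (em (⟨i, x⟩, true)) ≤ La
  io : ∀ i, O p (ZMod p) (s i) →ₐ[ZMod p] O p (ZMod p) V
  hy : ∀ i x, (w i).kd x = none → io i (z x) = z (em (⟨i, x⟩, false))
  near : ∀ i x, (w i).kd x = some (t i) →
    Hi FV (N + (w i).F x) (io i (z x) - z (em (⟨i, x⟩, false)))
  far : ∀ i x, (w i).kd x = some (!t i) → Hi FV (N + (w i).F x) (io i (z x))
  rho : O p (ZMod p) (Xi w t) →ₐ[ZMod p] O p (ZMod p) V
  hrho : ∀ q : Xi w t, Hi FV (FV (em q.1)) (rho (z q) - z (em q.1))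
  Q : O p (ZMod p) (Xi w t)
  hQ : Q ∈ (mx : Ideal (O p (ZMod p) (Xi w t))) ^ 2
  c : ∀ i, s i → ZMod p
  hc : ∀ i x, t i = false → (w i).kd x = none → c i x ≠ 0
  Ps : O p (ZMod p) V
  Ps2 : Ps ∈ (mx : Ideal (O p (ZMod p) V)) ^ 2
  hPs : Ps ∈ Ge (vw w t La em FV) (3 * La)
  eq : ∑ i, (if t i = true then io i (w i).W else -io i (w i).W) +
    ∑ i, ∑ x, (if t i = false ∧ (w i).kd x = none then
      c i x • (z (em (⟨i, x⟩, false)) * z (em (⟨i, x⟩, true))) else 0) + Ps = rho Q

variable {w : ∀ i, Wall p Γ δ (s i)} {t : Fin 3 → Bool} {N La : ℕ} {V : Type}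

theorem kill_Ge [Fintype V] (A : V → Prop) [Fintype {x // A x}] {FV : V → ℕ}
    {FV' : {x // A x} → ℕ} (h : ∀ x, FV x.1 ≤ FV' x) {n : ℕ} {f : O p (ZMod p) V}
    (hf : f ∈ Ge FV n) : kill A f ∈ Ge FV' n :=
  Ge_map _ (fun v => by
    by_cases hv : A v
    · rw [kill_z hv]; exact Ge_anti (h ⟨v, hv⟩) (z_mem_Ge _)
    · rw [kill_z_not hv]; exact zero_mem _) hf

namespace VxE

variable [Fintype V] (v : VxE w t N La V)

/-- the trilinear coefficient -/
noncomputable def cub (al : ∀ i, s i) : ZMod p :=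
  aug (pd (v.em (⟨0, al 0⟩, !t 0)) (pd (v.em (⟨1, al 1⟩, !t 1)) (pd (v.em (⟨2, al 2⟩, !t 2)) v.Ps)))

/-- the variables that are not extra -/
def Us (x : V) : Prop := ∃ q, Ok w t q ∧ v.em q = x

open Classical in
/-- the indexing of the variables that are not extra -/
noncomputable def em' (x0 : {x // v.Us x}) (q : (Σ i, s i) × Bool) : {x // v.Us x} :=
  if h : Ok w t q then ⟨v.em q, q, h, rfl⟩ else x0

theorem em'_val (x0 : {x // v.Us x}) {q : (Σ i, s i) × Bool} (h : Ok w t q) :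
    (v.em' x0 q).1 = v.em q := by
  rw [em', dif_pos h]

theorem kill_em (x0 : {x // v.Us x}) {q : (Σ i, s i) × Bool} (h : Ok w t q) :
    kill v.Us (z (v.em q) : O p (ZMod p) V) = z (v.em' x0 q) := by
  rw [kill_z ⟨q, h, rfl⟩, em', dif_pos h]

/-- the vertex identity without extra variables -/
noncomputable def red [Fintype {x // v.Us x}] (x0 : {x // v.Us x}) :
    VxG w t N La {x // v.Us x} where
  em := v.em' x0
  inj := fun q hq q' hq' e => v.inj hq hq' (by
    rw [← v.em'_val x0 hq, ← v.em'_val x0 hq', e])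
  onto := by
    rintro ⟨x, q, hq, rfl⟩
    exact ⟨q, hq, Subtype.ext (v.em'_val x0 hq)⟩
  FV x := v.FV x.1
  hF i x h := by rw [v.em'_val x0 h, v.hF i x h]
  hm i x h := by rw [v.em'_val x0 h]; exact v.hm i x h
  io i := (kill v.Us).comp (v.io i)
  hy i x h := by rw [AlgHom.comp_apply, v.hy i x h, v.kill_em x0 (ok_y h)]
  near i x h := by
    have := kill_Ge v.Us (FV' := fun x => v.FV x.1) (fun _ => le_rfl) (v.near i x h)
    rwa [map_sub, v.kill_em x0 (ok_near h)] at this
  far i x h := kill_Ge v.Us (FV' := fun x => v.FV x.1) (fun _ => le_rfl) (v.far i x h)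
  rho := (kill v.Us).comp v.rho
  hrho q := by
    have := kill_Ge v.Us (FV' := fun x => v.FV x.1) (fun _ => le_rfl) (v.hrho q)
    rw [map_sub, v.kill_em x0 (ok_xi q)] at this
    rw [v.em'_val x0 (ok_xi q)]
    exact this
  Q := v.Q
  hQ := v.hQ
  c := v.c
  hc := v.hc
  Ps := kill v.Us v.Ps
  Ps2 := map_mx_pow _ (kill_z_mem _) v.Ps2
  hPs := by
    refine kill_Ge v.Us (FV' := vw w t La (v.em' x0) fun x => v.FV x.1) (fun x => ?_) v.hPs
    have e : (∃ i y, (w i).kd y = some (t i) ∧ x.1 = v.em (⟨i, y⟩, false)) ↔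
        ∃ i y, (w i).kd y = some (t i) ∧ x = v.em' x0 (⟨i, y⟩, false) :=
      exists_congr fun i => exists_congr fun y => and_congr_right fun hy => by
        rw [Subtype.ext_iff, v.em'_val x0 (ok_near hy)]
    unfold vw
    by_cases h : ∃ i y, (w i).kd y = some (t i) ∧ x.1 = v.em (⟨i, y⟩, false)
    · rw [if_pos h, if_pos (e.1 h)]
    · rw [if_neg h, if_neg fun h' => h (e.2 h')]
  eq := by
    have h := congrArg (kill v.Us) v.eq
    rw [map_add, map_add, map_sum, map_sum] at h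
    rw [AlgHom.comp_apply, ← h]
    congr 2
    · refine Finset.sum_congr rfl fun i _ => ?_
      split_ifs <;> simp
    · refine Finset.sum_congr rfl fun i _ => ?_
      rw [map_sum]
      refine Finset.sum_congr rfl fun x _ => ?_
      split_ifs with hx
      · rw [map_smul, map_mul, v.kill_em x0 (ok_y hx.2), v.kill_em x0 (ok_m hx.1 hx.2)]
      · simp

theorem red_cub [Fintype {x // v.Us x}] (x0 : {x // v.Us x}) {al : ∀ i, s i}
    (h : ∀ i, (w i).kd (al i) = none) : (v.red x0).cub al = v.cub al := by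
  simp only [VxG.cub, cub, red]
  rw [pd_kill, pd_kill, pd_kill, aug_kill, v.em'_val x0 (ok_dir (h 0)),
    v.em'_val x0 (ok_dir (h 1)), v.em'_val x0 (ok_dir (h 2))]

/-- the vertex theorem with extra variables -/
theorem vertex (hV : VertexG) [∀ i, DecidableEq (s i)] {al : ∀ i, s i}
    (hal : ∀ i, (w i).kd (al i) = none) (hG : ∀ i, (w i).Gd N La (t i) (al i))
    (hT : ∀ i, (w i).Test N La (t i) (al i)) : v.cub al = 0 := by
  classical
  let x0 : {x // v.Us x} := ⟨_, _, ok_y (hal 0), rfl⟩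
  rw [← v.red_cub x0 hal]
  exact hV p Γ δ s w t N La _ (v.red x0) al hal hG hT

end VxE

open Classical in
/-- the weights on the variables of a vertex identity with linear hypotheses -/
noncomputable def Vx.fv (v : Vx w t V) (N : ℕ) (x : V) : ℕ :=
  if h : ∃ q, Ok w t q ∧ v.em q = x then N + v.FV h.choose else 2 * N

theorem Vx.fv_em (v : Vx w t V) (N : ℕ) {q : (Σ i, s i) × Bool} (h : Ok w t q) :
    v.fv N (v.em q) = N + v.FV q := by
  have h' : ∃ q', Ok w t q' ∧ v.em q' = v.em q := ⟨q, h, rfl⟩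
  rw [Vx.fv, dif_pos h', v.inj h'.choose_spec.1 h h'.choose_spec.2]

theorem Vx.hi [Fintype V] (v : Vx w t V) {n : ℕ} (hn : n < N) {f : O p (ZMod p) V}
    (h : Up w t v.em v.FV n f) : Hi (v.fv N) (N + n) f := by
  refine hi_of_lin (N := N) (fun x => ?_) (by omega) h.1 fun x hx => ?_
  · unfold Vx.fv
    split_ifs <;> omega
  · by_cases h' : ∃ q, Ok w t q ∧ v.em q = x
    · obtain ⟨q, hq, rfl⟩ := h'
      rw [v.fv_em N hq] at hx
      exact h.2 q hq (by omega)
    · rw [Vx.fv, dif_neg h'] at hx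
      omega

/-- a vertex identity with linear hypotheses is one with weights -/
noncomputable def Vx.toE [Fintype V] (v : Vx w t V) (N La : ℕ) (hF : ∀ i x, (w i).F x < N)
    (hV : ∀ q, Ok w t q → v.FV q < N) (hL : 2 * N ≤ La) : VxE w t N La V where
  em := v.em
  inj := v.inj
  FV := v.fv N
  hF i x h := by rw [v.fv_em N h, v.hF]
  hm i x h := by
    have := hV _ h
    rw [v.fv_em N h]
    omega
  io := v.io
  hy := v.hy
  near i x h := v.hi (hF i x) (v.near i x h)
  far i x h := v.hi (hF i x) (v.far i x h)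
  rho := v.rho
  hrho q := by rw [v.fv_em N (ok_xi q)]; exact v.hi (hV _ (ok_xi q)) (v.hrho q)
  Q := v.Q
  hQ := v.hQ
  c := v.c
  hc := v.hc
  Ps := v.Ps
  Ps2 := by
    refine Ideal.pow_le_pow_right (n := 3) (by norm_num) (Ideal.pow_right_mono ?_ 3 v.hPs)
    rw [Ideal.span_le]
    rintro _ ⟨x, rfl, -⟩
    exact z_mem x
  hPs := by
    refine Ge_pow 3 (Ideal.pow_right_mono ?_ 3 v.hPs)
    rw [Ideal.span_le]
    rintro _ ⟨x, rfl, hx⟩
    have := z_mem_Ge (p := p) (FV := vw w t La v.em (v.fv N)) x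
    rwa [vw, if_neg fun ⟨i, y, hy, e⟩ => hx i y hy e] at this
  eq := v.eq

/-- the vertex theorem for linear hypotheses and the arithmetic condition `Gd` -/
theorem Vx.vertex (hV : VertexG) [∀ i, DecidableEq (s i)] [Finite V] (v : Vx w t V)
    (hF : ∀ i x, (w i).F x < N) (hF' : ∀ q, Ok w t q → v.FV q < N) (hL : 2 * N ≤ La)
    {al : ∀ i, s i} (hal : ∀ i, (w i).kd (al i) = none) (hG : ∀ i, (w i).Gd N La (t i) (al i))
    (hT : ∀ i, (w i).Test N La (t i) (al i)) : v.cub al = 0 := by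
  have := Fintype.ofFinite V
  exact (v.toE N La hF hF' hL).vertex hV hal hG hT



theorem strong_orG (hD : DichG) (hp2 : p ≠ 2) {s : Type} [Fintype s] [DecidableEq s]
    (w : Wall p Γ δ s) (N : ℕ) {La : ℕ} (hL : 0 < La) {D : ZMod p → s}
    (h : ∀ d, w.kd (D d) = none) : w.Strong N La true D ∨ w.Strong N La false D := by
  classical
  have hp0 : NeZero p := ⟨hp.out.ne_zero⟩
  unfold Wall.Strong
  rw [Nat.subtype_card (Finset.univ.filter fun d => w.Test N La true (D d)) (by simp),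
    Nat.subtype_card (Finset.univ.filter fun d => w.Test N La false (D d)) (by simp)]
  have h1 : (Finset.univ : Finset (ZMod p)) ⊆
      (Finset.univ.filter fun d => w.Test N La true (D d)) ∪
        Finset.univ.filter fun d => w.Test N La false (D d) := fun d _ => by
    simpa using hD p Γ δ s w N La hL (D d) (h d)
  have h2 := (Finset.card_le_card h1).trans (Finset.card_union_le _ _)
  rw [Finset.card_univ, ZMod.card] at h2
  obtain ⟨k, hk⟩ := hp.out.odd_of_ne_two hp2
  omega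

/-- strongness is inherited along any implication between tests -/
theorem Wall.Strong.imp {s s' : Type} [Fintype s] [DecidableEq s] [Fintype s'] [DecidableEq s']
    {w : Wall p Γ δ s} {w' : Wall p Γ δ s'} {N La N' La' : ℕ} {b b' : Bool} {D : ZMod p → s}
    {D' : ZMod p → s'} (h : w.Strong N La b D)
    (hi : ∀ d, w.Test N La b (D d) → w'.Test N' La' b' (D' d)) : w'.Strong N' La' b' D' := by
  have hp0 : NeZero p := ⟨hp.out.ne_zero⟩
  refine lt_of_lt_of_le h (Nat.mul_le_mul_left _ (Nat.card_le_card_of_injective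
    (fun d => (⟨d.1, hi d.1 d.2⟩ : {d : ZMod p // w'.Test N' La' b' (D' d)})) ?_))
  intro d d' e
  exact Subtype.ext (by simpa using e)

/-- three strong sides give tests in directions of total degree `m0` -/
theorem exists_dirs [∀ i, DecidableEq (s i)] {D : ∀ i, ZMod p → s i} (m0 : ZMod p)
    (hS : ∀ i, (w i).Strong N La (t i) (D i)) : ∃ d : Fin 3 → ZMod p,
    ∑ i, (if t i = true then d i else m0 - d i) = m0 ∧ ∀ i, (w i).Test N La (t i) (D i (d i)) := by
  classical
  have hp0 : NeZero p := ⟨hp.out.ne_zero⟩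
  let f : Fin 3 → ZMod p → ZMod p := fun i d => if t i = true then d else m0 - d
  have hf : ∀ i, Function.Injective (f i) := fun i => by
    simp only [f]
    split_ifs
    · exact Function.injective_id
    · exact sub_right_injective
  obtain ⟨e, he, hs⟩ := pigeon3 (fun i =>
    (Finset.univ.filter fun d => (w i).Test N La (t i) (D i d)).map ⟨f i, hf i⟩) (fun i => by
      have := hS i
      rw [Wall.Strong, Nat.subtype_card
        (Finset.univ.filter fun d => (w i).Test N La (t i) (D i d)) (by simp)] at this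
      rwa [Finset.card_map]) m0
  choose d hd hde using fun i => Finset.mem_map.1 (he i)
  exact ⟨d, (Finset.sum_congr rfl fun i _ => hde i).trans hs, fun i => by simpa using hd i⟩






end N255.Core
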